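import Vale.Agent.P123.Core

/-!
# `‖f(A)‖ ≤ 2` for diagonalisable operators
-/

open Complex MeasureTheory Set Filter Topology
open scoped Real ComplexConjugate InnerProductSpace

noncomputable section

namespace Vale.Agent.P123

variable {E : Type*} [NormedAddCommGroup E] [InnerProductSpace ℂ E] {ι : Type*} [Fintype ι]
  [DecidableEq ι]

namespace Loop

variable (L : Loop) (D : EigenData E ι)

/-- the norms `‖h(A)‖`, `h` holomorphic and bounded by `1` on the domain -/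
def normSet : Set ℝ :=
  {x | ∃ h : ℂ → ℂ, DifferentiableOn ℂ h L.Ω ∧ (∀ z ∈ L.Ω, ‖h z‖ ≤ 1) ∧ x = ‖D.app h‖}

/-- the best constant -/
def best : ℝ := sSup (L.normSet D)

lemma bddAbove_normSet (hev : ∀ i, D.ev i ∈ L.Ω) : BddAbove (L.normSet D) := by
  refine ⟨1 * ∑ i, ‖D.P i‖, ?_⟩
  rintro x ⟨h, -, hh, rfl⟩
  exact D.norm_app_le h fun i => hh _ (hev i)

lemma norm_le_best (hev : ∀ i, D.ev i ∈ L.Ω) {h : ℂ → ℂ} (hd : DifferentiableOn ℂ h L.Ω)
    (hh : ∀ z ∈ L.Ω, ‖h z‖ ≤ 1) : ‖D.app h‖ ≤ L.best D :=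
  le_csSup (L.bddAbove_normSet D hev) ⟨h, hd, hh, rfl⟩

lemma best_nonneg (hev : ∀ i, D.ev i ∈ L.Ω) : 0 ≤ L.best D := by
  have := L.norm_le_best D hev (h := fun _ => 0) (differentiableOn_const _) (by simp)
  exact (norm_nonneg _).trans this

lemma norm_le_best_mul (hev : ∀ i, D.ev i ∈ L.Ω) {h : ℂ → ℂ} (hd : DifferentiableOn ℂ h L.Ω)
    {M : ℝ} (hM : 0 < M) (hh : ∀ z ∈ L.Ω, ‖h z‖ ≤ M) (v : E) :
    ‖D.app h v‖ ≤ L.best D * M * ‖v‖ := by
  have hne : (M : ℂ) ≠ 0 := by simp [hM.ne']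
  have h1 := L.norm_le_best D hev (h := fun z => (M : ℂ)⁻¹ * h z) (hd.const_mul _) (fun z hz => by
    rw [norm_mul, norm_inv, Complex.norm_real, Real.norm_of_nonneg hM.le, inv_mul_le_iff₀ hM,
      mul_one]
    exact hh z hz)
  have h2 : D.app h v = (M : ℂ) • D.app (fun z => (M : ℂ)⁻¹ * h z) v := by
    rw [D.app_smul, smul_smul, mul_inv_cancel₀ hne, one_smul]
  rw [h2, norm_smul, Complex.norm_real, Real.norm_of_nonneg hM.le]
  calc M * ‖D.app (fun z => (M : ℂ)⁻¹ * h z) v‖ ≤ M * (L.best D * ‖v‖) := by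
        gcongr
        exact (ContinuousLinearMap.le_opNorm _ _).trans (by gcongr)
    _ = L.best D * M * ‖v‖ := by ring

lemma exists_near (hev : ∀ i, D.ev i ∈ L.Ω) {η : ℝ} (hη : 0 < η) :
    ∃ (U : Set ℂ) (f : ℂ → ℂ), IsOpen U ∧ Convex ℝ U ∧ closure L.Ω ⊆ U ∧ DifferentiableOn ℂ f U ∧
      (∀ z ∈ closure L.Ω, ‖f z‖ ≤ 1) ∧ L.best D - η < ‖D.app f‖ := by
  have hne : (L.normSet D).Nonempty :=
    ⟨_, fun _ => 0, differentiableOn_const _, by simp, rfl⟩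
  obtain ⟨x, ⟨h, hd, hh, rfl⟩, hx⟩ := exists_lt_of_lt_csSup hne
    (show L.best D - η < sSup (L.normSet D) by unfold best; linarith)
  have hcont : Tendsto (fun ρ : ℝ => ‖D.app (fun z => h ((ρ : ℂ) * z))‖) (𝓝 1) (𝓝 ‖D.app h‖) := by
    have : Tendsto (fun ρ : ℝ => ∑ i, h ((ρ : ℂ) * D.ev i) • D.P i) (𝓝 1)
        (𝓝 (∑ i, h (D.ev i) • D.P i)) := by
      refine tendsto_finsetSum _ fun i _ => Tendsto.smul_const ?_ _
      have h1 : ContinuousAt h (D.ev i) :=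
        (hd.differentiableAt (L.isOpen.mem_nhds (hev i))).continuousAt
      have h2 : Tendsto (fun ρ : ℝ => (ρ : ℂ) * D.ev i) (𝓝 1) (𝓝 (D.ev i)) := by
        simpa using (Complex.continuous_ofReal.tendsto 1).mul_const (D.ev i)
      exact h1.tendsto.comp h2
    exact this.norm
  have hev' : ∀ᶠ (ρ : ℝ) in 𝓝[<] (1 : ℝ), L.best D - η < ‖D.app (fun z => h ((ρ : ℂ) * z))‖ :=
    (hcont.mono_left nhdsWithin_le_nhds).eventually (eventually_gt_nhds hx)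
  obtain ⟨ρ, hρ, hρ0, hρ1⟩ := (hev'.and (Ioo_mem_nhdsLT (show (0:ℝ) < 1 by norm_num))).exists
  have hmem : ∀ z ∈ closure L.Ω, (ρ : ℂ) * z ∈ L.Ω := by
    intro z hz
    have := L.convex.combo_interior_closure_mem_interior (x := 0) (y := z)
      (by rw [L.isOpen.interior_eq]; exact L.zero_mem) hz (a := (1 - ρ : ℝ)) (b := ρ)
      (by linarith) hρ0.le (by ring)
    rw [L.isOpen.interior_eq] at this
    simpa [Complex.real_smul] using this
  refine ⟨{z | (ρ : ℂ) * z ∈ L.Ω}, fun z => h ((ρ : ℂ) * z), ?_, ?_, hmem, ?_, ?_, hρ⟩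
  · exact L.isOpen.preimage (continuous_const.mul continuous_id)
  · have : {z : ℂ | (ρ : ℂ) * z ∈ L.Ω} = (LinearMap.lsmul ℝ ℂ ρ) ⁻¹' L.Ω := by
      ext z; simp [Complex.real_smul]
    rw [this]; exact L.convex.linear_preimage _
  · exact hd.comp ((differentiable_id.const_mul _).differentiableOn) fun z hz => hz
  · exact fun z hz => hh _ (hmem z hz)

lemma exists_top_vector [FiniteDimensional ℂ E] [Nontrivial E] (T : E →L[ℂ] E) :
    ∃ x : E, ‖x‖ = 1 ∧ ‖T x‖ = ‖T‖ ∧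
      ∀ v, ⟪T x, T v⟫_ℂ = ((‖T‖ ^ 2 : ℝ) : ℂ) * ⟪x, v⟫_ℂ := by
  haveI : CompleteSpace E := FiniteDimensional.complete ℂ E
  haveI : ProperSpace E := FiniteDimensional.proper ℂ E
  obtain ⟨x₀, hx₀⟩ : ∃ x : E, x ≠ 0 := exists_ne 0
  have hne : (Metric.sphere (0 : E) 1).Nonempty :=
    ⟨(‖x₀‖ : ℂ)⁻¹ • x₀, by simp [norm_smul, norm_ne_zero_iff.2 hx₀]⟩
  obtain ⟨x, hx, hmax⟩ := (isCompact_sphere (0 : E) 1).exists_isMaxOn hne T.continuous.norm.continuousOn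
  have hx1 : ‖x‖ = 1 := by simpa using hx
  have hTx : ‖T x‖ = ‖T‖ := by
    refine le_antisymm (by simpa [hx1] using T.le_opNorm x) (T.opNorm_le_bound (norm_nonneg _) fun v => ?_)
    rcases eq_or_ne v 0 with h | h
    · simp [h]
    · have hv : 0 < ‖v‖ := norm_pos_iff.2 h
      have := hmax (a := (‖v‖ : ℂ)⁻¹ • v) (by simp [norm_smul, hv.ne'])
      simp only [mem_setOf_eq, map_smul, norm_smul, norm_inv, Complex.norm_real, norm_norm] at this
      rw [inv_mul_le_iff₀ hv] at this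
      linarith
  refine ⟨x, hx1, hTx, fun v => ?_⟩
  set y := ContinuousLinearMap.adjoint T (T x) with hy
  have h1 : ‖y‖ ≤ ‖T‖ ^ 2 := by
    calc ‖y‖ ≤ ‖ContinuousLinearMap.adjoint T‖ * ‖T x‖ := ContinuousLinearMap.le_opNorm _ _
      _ = ‖T‖ ^ 2 := by rw [hTx, LinearIsometryEquiv.norm_map, sq]
  have h2 : (⟪y, ((‖T‖ ^ 2 : ℝ) : ℂ) • x⟫_ℂ).re = ‖T‖ ^ 2 * ‖T‖ ^ 2 := by
    rw [inner_smul_right, hy, ContinuousLinearMap.adjoint_inner_left, inner_self_eq_norm_sq_to_K, hTx,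
      Complex.re_ofReal_mul]
    simp [← Complex.ofReal_pow]
  have h3 : ‖y - ((‖T‖ ^ 2 : ℝ) : ℂ) • x‖ ^ 2 ≤ 0 := by
    rw [@norm_sub_sq ℂ, RCLike.re_eq_complex_re, h2, norm_smul, hx1, Complex.norm_real, Real.norm_of_nonneg (sq_nonneg _)]
    nlinarith [norm_nonneg y, sq_nonneg ‖T‖]
  have h4 : y = ((‖T‖ ^ 2 : ℝ) : ℂ) • x := by
    have := norm_nonneg (y - ((‖T‖ ^ 2 : ℝ) : ℂ) • x)
    exact sub_eq_zero.1 (norm_eq_zero.1 (by nlinarith))
  rw [← ContinuousLinearMap.adjoint_inner_left, ← hy, h4, inner_smul_left, Complex.conj_ofReal]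

lemma re_inner_positive (hev : ∀ i, D.ev i ∈ L.Ω) {f h : ℂ → ℂ} (hf : DifferentiableOn ℂ f L.Ω)
    (hf1 : ∀ z ∈ L.Ω, ‖f z‖ ≤ 1) {x : E} {s : ℝ} (hs : 0 < s) (hxs : ‖D.app f x‖ = s)
    (hx : ∀ v, ⟪D.app f x, D.app f v⟫_ℂ = ((s ^ 2 : ℝ) : ℂ) * ⟪x, v⟫_ℂ) (hx1 : ‖x‖ = 1)
    (hh : DifferentiableOn ℂ h L.Ω) {ε : ℝ} (hε : 0 < ε)
    (hb : ∀ z ∈ L.Ω, ‖1 - (ε : ℂ) * h z‖ ≤ 1)
    (hclose : L.best D ^ 2 - s ^ 2 ≤ ε * s ^ 2 / 4) : -(1 / 8) ≤ (⟪x, D.app h x⟫_ℂ).re := by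
  have h1 := L.norm_le_best D hev (h := fun z => f z * (1 - (ε : ℂ) * h z))
    (hf.mul ((hh.const_mul _).const_sub 1)) (fun z hz => by
      rw [norm_mul]
      exact mul_le_one₀ (hf1 z hz) (norm_nonneg _) (hb z hz))
  have h2 : ‖D.app f x - (ε : ℂ) • D.app f (D.app h x)‖ ≤ L.best D := by
    have := (ContinuousLinearMap.le_opNorm (D.app (fun z => f z * (1 - (ε : ℂ) * h z))) x).trans
      (mul_le_mul_of_nonneg_right h1 (norm_nonneg x))
    rw [hx1, mul_one] at this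
    rwa [D.app_comp, ← D.app_smul, ← D.app_sub,
      show (fun z => f z - (ε : ℂ) * (f z * h z)) = fun z => f z * (1 - (ε : ℂ) * h z) by funext z; ring]
  have h3 := pow_le_pow_left₀ (norm_nonneg _) h2 2
  rw [@norm_sub_sq ℂ, RCLike.re_eq_complex_re, inner_smul_right, hx, hxs, Complex.re_ofReal_mul,
    Complex.re_ofReal_mul] at h3
  have hεs : 0 < ε * s ^ 2 := by positivity
  have : 0 ≤ ‖(ε : ℂ) • D.app f (D.app h x)‖ ^ 2 := sq_nonneg _
  by_contra hc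
  push_neg at hc
  nlinarith

lemma resolvent_facts (hev : ∀ i, D.ev i ∈ L.Ω) {F : ℂ → ℂ} (hFΩ : DifferentiableOn ℂ F L.Ω)
    (hF1 : ∀ z ∈ L.Ω, ‖F z‖ ≤ 1) {x : E} {s : ℝ} (hspos : 0 < s) (hxT : ‖D.app F x‖ = s)
    (hxv : ∀ v, ⟪D.app F x, D.app F v⟫_ℂ = ((s ^ 2 : ℝ) : ℂ) * ⟪x, v⟫_ℂ) (hx1 : ‖x‖ = 1)
    {r M ε : ℝ} (hr0 : 0 < r) (hr1 : r < 1) (hM : M = 1 / (1 - r ^ 2) + 1)
    (hε : ε = 1 / (2 * M ^ 2)) (hclose : L.best D ^ 2 - s ^ 2 ≤ ε * s ^ 2 / 4)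
    {q : ℂ → ℂ} (hqd : DifferentiableOn ℂ q L.Ω) (hqb : ∀ z ∈ L.Ω, ‖q z‖ ≤ r ^ 2) :
    (∀ z ∈ L.Ω, 1 - q z ≠ 0) ∧ DifferentiableOn ℂ (fun z => (1 - q z)⁻¹) L.Ω ∧
      (∀ z ∈ L.Ω, ‖(1 - q z)⁻¹‖ ≤ M) ∧
      1 / 8 ≤ (⟪x, D.app (fun z => (1 - q z)⁻¹) x⟫_ℂ).re := by
  have hr2' : 0 < 1 - r ^ 2 := by nlinarith
  have hMpos : 0 < M := by rw [hM]; positivity
  have hεpos : 0 < ε := by rw [hε]; positivity
  have hlow : ∀ z ∈ L.Ω, 1 - r ^ 2 ≤ ‖1 - q z‖ := fun z hz => by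
    have := norm_sub_norm_le (1 : ℂ) (q z)
    rw [norm_one] at this
    linarith [hqb z hz]
  have hne : ∀ z ∈ L.Ω, 1 - q z ≠ 0 := fun z hz h => by
    have := hlow z hz
    rw [h, norm_zero] at this; linarith
  have hd : DifferentiableOn ℂ (fun z => (1 - q z)⁻¹) L.Ω := (hqd.const_sub 1).inv hne
  have hnb : ∀ z ∈ L.Ω, ‖(1 - q z)⁻¹‖ ≤ 1 / (1 - r ^ 2) := fun z hz => by
    rw [norm_inv, one_div]; exact inv_anti₀ hr2' (hlow z hz)
  refine ⟨hne, hd, fun z hz => (hnb z hz).trans (by rw [hM]; linarith), ?_⟩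
  have hre : ∀ z ∈ L.Ω, 1 / 2 ≤ ((1 - q z)⁻¹).re := fun z hz => by
    have hpos : 0 < Complex.normSq (1 - q z) := Complex.normSq_pos.2 (hne z hz)
    have h1 : Complex.normSq (q z) ≤ 1 := by
      rw [Complex.normSq_eq_norm_sq]
      exact pow_le_one₀ (norm_nonneg _) ((hqb z hz).trans (by nlinarith))
    rw [Complex.inv_re, le_div_iff₀ hpos, Complex.normSq_apply, Complex.sub_re, Complex.sub_im,
      Complex.one_re, Complex.one_im]
    rw [Complex.normSq_apply] at h1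
    nlinarith
  have hpos : -(1 / 8) ≤ (⟪x, D.app (fun z => (1 - q z)⁻¹ - 1 / 4) x⟫_ℂ).re := by
    refine L.re_inner_positive D hev hFΩ hF1 hspos hxT hxv hx1 (hd.sub_const _) hεpos
      (fun z hz => ?_) hclose
    have hb1 : ‖(1 - q z)⁻¹ - 1 / 4‖ ≤ M := by
      refine (norm_sub_le _ _).trans ?_
      have : ‖(1 / 4 : ℂ)‖ ≤ 1 := by norm_num
      linarith [hnb z hz]
    have hb2 : 1 / 4 ≤ ((1 - q z)⁻¹ - 1 / 4).re := by
      rw [Complex.sub_re, show ((1 / 4 : ℂ)).re = 1 / 4 by norm_num]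
      linarith [hre z hz]
    have hsq : ‖1 - (ε : ℂ) * ((1 - q z)⁻¹ - 1 / 4)‖ ^ 2 ≤ 1 := by
      set h := (1 - q z)⁻¹ - 1 / 4
      have h0 : ‖1 - (ε : ℂ) * h‖ ^ 2 = 1 - 2 * (ε * h.re) + (ε * ‖h‖) ^ 2 := by
        rw [← Complex.normSq_eq_norm_sq, Complex.normSq_apply, mul_pow ε ‖h‖,
          ← Complex.normSq_eq_norm_sq, Complex.normSq_apply]
        simp only [Complex.sub_re, Complex.sub_im, Complex.one_re, Complex.one_im,
          Complex.re_ofReal_mul, Complex.im_ofReal_mul]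
        ring
      have h3 : (ε * ‖h‖) ^ 2 ≤ ε / 2 := by
        have hεM : ε * M ^ 2 = 1 / 2 := by rw [hε]; field_simp
        calc (ε * ‖h‖) ^ 2 ≤ (ε * M) ^ 2 := by gcongr
          _ = ε * (ε * M ^ 2) := by ring
          _ = ε / 2 := by rw [hεM]; ring
      rw [h0]; nlinarith
    exact (pow_le_one_iff_of_nonneg (norm_nonneg _) two_ne_zero).1 hsq
  have e1 : (⟪x, D.app (fun z => (1 - q z)⁻¹ - 1 / 4) x⟫_ℂ).re
      = (⟪x, D.app (fun z => (1 - q z)⁻¹) x⟫_ℂ).re - 1 / 4 := by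
    rw [D.app_sub, inner_sub_right,
      show (fun _ : ℂ => (1 / 4 : ℂ)) = fun z => (1 / 4 : ℂ) * (fun _ => 1) z by simp, D.app_smul,
      D.app_one, inner_smul_right]
    simp [inner_self_eq_norm_sq_to_K, hx1]
  rw [e1] at hpos
  linarith

/-- The algebraic identity behind the choice of the test vectors. -/
lemma key_eval (hev : ∀ i, D.ev i ∈ L.Ω) (hW : ∀ v : E, ‖v‖ = 1 → ⟪v, D.op v⟫_ℂ ∈ L.Ω)
    {U : Set ℂ} (hU : IsOpen U) (hUc : Convex ℝ U) (hsub : closure L.Ω ⊆ U)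
    {f : ℂ → ℂ} (hfd : DifferentiableOn ℂ f U) (hf1 : ∀ z ∈ closure L.Ω, ‖f z‖ ≤ 1)
    (n : ℕ) (u v : ℂ → ℂ) (hu : ∀ i, (1 - L.serA f n (D.ev i)) * u (D.ev i) = 1)
    (hv : ∀ i, (1 - f (D.ev i) * L.tr f (D.ev i)) * v (D.ev i) = 1)
    {k : ℝ} (hk : k ≠ 0) (x y : E) (hfx : D.app f x = (k : ℂ) • y)
    (hyy : ∀ h, ⟪y, D.app h y⟫_ℂ = ⟪x, D.app h x⟫_ℂ) :
    0 ≤ (2 / k - 1) * (⟪x, D.app u x⟫_ℂ).re + (3 - k - 2 / k) * (⟪x, D.app v x⟫_ℂ).re
      - (1 - 1 / k) * (⟪x, D.app (fun z => (1 / 2 : ℂ) ^ n *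
          (u z * v z * (f z ^ (n + 1) * L.tr (fun w => f w ^ (n + 1)) z))) x⟫_ℂ).re := by
  set m : ℂ → ℂ := fun z => L.tr f z - L.serB f n z with hm
  set p₂ : E := (1 - (k : ℂ)) • D.app v y with hp₂
  set p₁ : E := D.app u (x - D.app m p₂) with hp₁
  have hb1 : D.app (fun z => 1 - L.serA f n z) p₁ + D.app m p₂ = x := by
    rw [hp₁, D.app_comp, D.app_congr (g := fun z => (1 - L.serA f n z) * u z) (h := fun _ => 1) hu,
      D.app_one, one_apply_eq_self, sub_add_cancel]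
  have hb2 : D.app (fun z => f z * (1 - L.serA f n z)) p₁
      + D.app (fun z => 1 - f z * L.serB f n z) p₂ = y := by
    have e1 : D.app (fun z => f z * (1 - L.serA f n z)) p₁
        = (k : ℂ) • y - D.app (fun z => f z * m z) p₂ := by
      rw [← D.app_comp f (fun z => 1 - L.serA f n z) p₁, eq_sub_of_add_eq hb1, map_sub, hfx, D.app_comp]
    have e2 : D.app (fun z => 1 - f z * L.serB f n z) p₂ - D.app (fun z => f z * m z) p₂
        = (1 - (k : ℂ)) • y := by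
      rw [← D.app_sub, hp₂, map_smul, D.app_comp,
        D.app_congr (g := fun z => (1 - f z * L.serB f n z - f z * m z) * v z) (h := fun _ => 1)
          (fun i => ?_), D.app_one, one_apply_eq_self]
      simp only [hm]; linear_combination hv i
    rw [e1, sub_add_eq_add_sub, add_sub_assoc, e2, ← add_smul]
    simp
  have hkey := L.key D hev hW hU hUc hsub hfd hf1 n p₁ p₂
  have e0 : ∀ (p q₁ q₂ : E), ⟪p, q₁⟫_ℂ + ⟪p, q₂⟫_ℂ = ⟪p, q₁ + q₂⟫_ℂ := fun p q₁ q₂ =>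
    (inner_add_right p q₁ q₂).symm
  rw [add_assoc, e0, e0, hb1, hb2, Complex.add_re] at hkey
  have hkC : (k : ℂ) ≠ 0 := by simpa using hk
  have hA : (⟪p₂, y⟫_ℂ).re = (1 - k) * (⟪x, D.app v x⟫_ℂ).re := by
    rw [hp₂, inner_smul_left, ← inner_conj_symm (D.app v y) y, hyy,
      show (1 : ℂ) - (k : ℂ) = ((1 - k : ℝ) : ℂ) by push_cast; ring, Complex.conj_ofReal,
      Complex.re_ofReal_mul, Complex.conj_re]
  have hp : p₁ = D.app u x - (((1 - k) / k : ℝ) : ℂ) • D.app (fun z => u z * (m z * (v z * f z))) x := by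
    have hy' : y = (k : ℂ)⁻¹ • D.app f x := by rw [hfx, smul_smul, inv_mul_cancel₀ hkC, one_smul]
    rw [hp₁, map_sub, hp₂, hy']
    simp only [map_smul, smul_smul, D.app_comp]
    congr 2
    push_cast; rw [div_eq_mul_inv]
  have hfun : D.app (fun z => u z * (m z * (v z * f z)))
      = D.app (fun z => (2 * v z - 2 * u z) - (1 / 2 : ℂ) ^ n *
          (u z * v z * (f z ^ (n + 1) * L.tr (fun w => f w ^ (n + 1)) z))) := by
    refine D.app_congr fun i => ?_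
    simp only [hm]
    linear_combination (2 * v (D.ev i)) * hu i - (2 * u (D.ev i)) * hv i
      - (u (D.ev i) * v (D.ev i)) * L.mul_serB f n (D.ev i)
  have hB : (⟪p₁, x⟫_ℂ).re = (⟪x, D.app u x⟫_ℂ).re - (1 - k) / k * (2 * (⟪x, D.app v x⟫_ℂ).re
      - 2 * (⟪x, D.app u x⟫_ℂ).re
      - (⟪x, D.app (fun z => (1 / 2 : ℂ) ^ n *
          (u z * v z * (f z ^ (n + 1) * L.tr (fun w => f w ^ (n + 1)) z))) x⟫_ℂ).re) := by
    rw [← inner_conj_symm p₁ x, Complex.conj_re, hp, hfun, D.app_sub, D.app_sub, D.app_smul 2 v,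
      D.app_smul 2 u]
    simp only [inner_sub_right, inner_smul_right]
    rw [Complex.sub_re, Complex.re_ofReal_mul]
    simp only [Complex.sub_re, Complex.mul_re, Complex.re_ofNat, Complex.im_ofNat]
    ring
  rw [hA, hB] at hkey
  refine hkey.trans_eq ?_
  field_simp
  ring

/-- the final numerical contradiction -/
lemma final_arith {k₀ k X Y Z C : ℝ} {n : ℕ} (hk₀2 : 2 < k₀) (hk₀k : k₀ < k) (hU8 : 1 / 8 ≤ X)
    (hY : 0 ≤ Y) (hC : 0 < C) (hn : (1 / 2 : ℝ) ^ n < (1 - 2 / k₀) * (1 / 8) / (2 * C))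
    (herr : |Z| ≤ (1 / 2 : ℝ) ^ n * C)
    (hkey : 0 ≤ (2 / k - 1) * X + (3 - k - 2 / k) * Y - (1 - 1 / k) * Z) : False := by
  have hkpos : 0 < k := by linarith
  have h2k : 2 / k ≤ 2 / k₀ := div_le_div_of_nonneg_left (by norm_num) (by linarith) hk₀k.le
  have h2k0 : 2 / k₀ < 1 := by rw [div_lt_one (by linarith)]; linarith
  have hcoef : 3 - k - 2 / k ≤ 0 := by
    have : 3 - k - 2 / k = -((k - 1) * (k - 2)) / k := by field_simp; ring
    rw [this]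
    exact div_nonpos_of_nonpos_of_nonneg (by nlinarith) hkpos.le
  have hn' : (1 / 2 : ℝ) ^ n * C < (1 - 2 / k₀) * (1 / 8) / 2 := by
    have h := mul_lt_mul_of_pos_right hn hC
    calc _ < (1 - 2 / k₀) * (1 / 8) / (2 * C) * C := h
      _ = _ := by field_simp
  have hY0 : (3 - k - 2 / k) * Y ≤ 0 := mul_nonpos_of_nonpos_of_nonneg hcoef hY
  have hX0 : (2 / k - 1) * X ≤ (2 / k₀ - 1) * (1 / 8) := by
    calc (2 / k - 1) * X ≤ (2 / k₀ - 1) * X := by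
          exact mul_le_mul_of_nonneg_right (by linarith) (by linarith)
      _ ≤ (2 / k₀ - 1) * (1 / 8) := mul_le_mul_of_nonpos_left hU8 (by linarith)
  have hZ0 : -((1 - 1 / k) * Z) ≤ |Z| := by
    have h1 : 0 ≤ 1 - 1 / k := by
      rw [sub_nonneg, div_le_one hkpos]; linarith
    have h2 : 1 - 1 / k ≤ 1 := by linarith [div_nonneg zero_le_one hkpos.le]
    calc -((1 - 1 / k) * Z) ≤ |(1 - 1 / k) * Z| := neg_le_abs _
      _ ≤ 1 * |Z| := by rw [abs_mul, abs_of_nonneg h1]; gcongr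
      _ = |Z| := one_mul _
  linarith

lemma differentiableOn_serA {U : Set ℂ} (hsub : closure L.Ω ⊆ U) {f : ℂ → ℂ}
    (hfd : DifferentiableOn ℂ f U) (n : ℕ) : DifferentiableOn ℂ (L.serA f n) L.Ω := by
  unfold serA
  exact DifferentiableOn.fun_sum fun k _ =>
    (((hfd.mono (subset_closure.trans hsub)).pow _).mul
      (L.differentiableOn_tr ((hfd.pow _).continuousOn.mono hsub))).const_mul _

lemma norm_serA_le {f : ℂ → ℂ} {r : ℝ} (n : ℕ) {z : ℂ} (hr : 0 ≤ r)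
    (hprod : ∀ d : ℕ, 0 < d → ‖f z ^ d * L.tr (fun w => f w ^ d) z‖ ≤ r) : ‖L.serA f n z‖ ≤ r := by
  rw [serA]
  refine (norm_sum_le _ _).trans ?_
  calc ∑ k ∈ Finset.range n, ‖(1 / 2 : ℂ) ^ (k + 1) * (f z ^ (k + 1) * L.tr (fun w => f w ^ (k + 1)) z)‖
      ≤ ∑ k ∈ Finset.range n, (1 / 2 : ℝ) ^ (k + 1) * r := by
        refine Finset.sum_le_sum fun k _ => ?_
        rw [norm_mul, norm_pow, norm_div, norm_one, Complex.norm_ofNat]
        gcongr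
        exact hprod _ (Nat.succ_pos k)
    _ ≤ 1 * r := by
        rw [← Finset.sum_mul]
        gcongr
        have : ∀ m, ∑ k ∈ Finset.range m, (1 / 2 : ℝ) ^ (k + 1) = 1 - (1 / 2 : ℝ) ^ m := by
          intro m
          induction m with
          | zero => simp
          | succ m ih => rw [Finset.sum_range_succ, ih]; ring
        rw [this]; linarith [pow_nonneg (show (0:ℝ) ≤ 1 / 2 by norm_num) n]
    _ = r := one_mul _

lemma best_le_two [FiniteDimensional ℂ E] (hev : ∀ i, D.ev i ∈ L.Ω)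
    (hW : ∀ v : E, ‖v‖ = 1 → ⟪v, D.op v⟫_ℂ ∈ L.Ω) : L.best D ≤ 2 := by
  rcases subsingleton_or_nontrivial E with hE | hE
  · refine csSup_le ⟨_, fun _ => 0, differentiableOn_const _, by simp, rfl⟩ ?_
    rintro x ⟨h, -, -, rfl⟩
    rw [Subsingleton.elim (D.app h) 0]; simp
  by_contra hc
  push_neg at hc
  set K := L.best D with hK
  -- parameters
  obtain ⟨r, hr0, hr1, hr2⟩ : ∃ r : ℝ, 0 < r ∧ r < 1 ∧ 2 < r * K :=
    ⟨(2 / K + 1) / 2, by positivity, by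
      have : 2 / K < 1 := by rw [div_lt_one (by linarith)]; linarith
      linarith, by
      have : (2 / K + 1) / 2 * K = (2 + K) / 2 := by field_simp
      linarith⟩
  set k₀ : ℝ := (2 + r * K) / 2 with hk₀
  have hk₀2 : 2 < k₀ := by linarith
  have hk₀K : k₀ < r * K := by linarith
  have hr2' : 0 < 1 - r ^ 2 := by nlinarith
  set M : ℝ := 1 / (1 - r ^ 2) + 1 with hM
  have hMpos : 0 < M := by positivity
  set ε : ℝ := 1 / (2 * M ^ 2) with hε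
  have hεpos : 0 < ε := by positivity
  set s₀ : ℝ := k₀ / r with hs₀
  have hs₀K : s₀ < K := by rw [hs₀, div_lt_iff₀ hr0]; linarith [hk₀K, mul_comm r K]
  have hs₀pos : 0 < s₀ := by positivity
  set η : ℝ := min (K - s₀) (ε * s₀ ^ 2 / (8 * K)) with hη
  have hηpos : 0 < η := lt_min (by linarith) (by positivity)
  obtain ⟨U, F, hUo, hUc, hsub, hFd, hF1, hFs⟩ := L.exists_near D hev hηpos
  set s : ℝ := ‖D.app F‖ with hs
  have hFΩ : DifferentiableOn ℂ F L.Ω := hFd.mono (subset_closure.trans hsub)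
  have hsK : s ≤ K := L.norm_le_best D hev hFΩ fun z hz => hF1 z (subset_closure hz)
  have hs₀s : s₀ < s := by
    have := min_le_left (K - s₀) (ε * s₀ ^ 2 / (8 * K)); linarith [hη ▸ this]
  have hspos : 0 < s := hs₀pos.trans hs₀s
  have hclose : K ^ 2 - s ^ 2 ≤ ε * s ^ 2 / 4 := by
    have h1 : K - s ≤ ε * s₀ ^ 2 / (8 * K) := by
      linarith [min_le_right (K - s₀) (ε * s₀ ^ 2 / (8 * K))]
    rw [le_div_iff₀ (by positivity)] at h1
    have h2 : s₀ ^ 2 ≤ s ^ 2 := pow_le_pow_left₀ hs₀pos.le hs₀s.le 2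
    nlinarith
  set k : ℝ := r * s with hk
  have hk₀k : k₀ < k := by
    have : s₀ * r = k₀ := by rw [hs₀]; field_simp
    nlinarith
  obtain ⟨x, hx1, hxT, hxv⟩ := exists_top_vector (D.app F)
  rw [← hs] at hxT hxv
  set y : E := (s : ℂ)⁻¹ • D.app F x with hy
  have hsC : (s : ℂ) ≠ 0 := by simp [hspos.ne']
  set φ : (ℂ → ℂ) → ℂ := fun h => ⟪x, D.app h x⟫_ℂ with hφ
  have hyy : ∀ h, ⟪y, D.app h y⟫_ℂ = φ h := by
    intro h
    have e : D.app h (D.app F x) = D.app F (D.app h x) := by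
      rw [D.app_comp, D.app_comp]; simp_rw [mul_comm]
    rw [hy, map_smul, inner_smul_left, inner_smul_right, e, hxv, map_inv₀, Complex.conj_ofReal]
    simp only [hφ]; push_cast; field_simp
  -- the scaled function
  set f : ℂ → ℂ := fun z => (r : ℂ) * F z with hf
  have hfd : DifferentiableOn ℂ f U := hFd.const_mul _
  have hfb : ∀ z ∈ closure L.Ω, ‖f z‖ ≤ r := fun z hz => by
    rw [hf, norm_mul, Complex.norm_real, Real.norm_of_nonneg hr0.le]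
    exact mul_le_of_le_one_right hr0.le (hF1 z hz)
  have hfΩ : DifferentiableOn ℂ f L.Ω := hfd.mono (subset_closure.trans hsub)
  set G : ℕ → ℂ → ℂ := fun d => L.tr (fun w => f w ^ d) with hG
  have hGd : ∀ d, DifferentiableOn ℂ (G d) L.Ω := fun d =>
    L.differentiableOn_tr ((hfd.pow d).continuousOn.mono hsub)
  have hGb : ∀ d, ∀ z ∈ L.Ω, ‖G d z‖ ≤ r ^ d := fun d z hz => by
    refine L.norm_tr_le hUo hUc hsub (hfd.pow d) (fun w hw => ?_) hz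
    rw [Pi.pow_apply, norm_pow]; exact pow_le_pow_left₀ (norm_nonneg _) (hfb w hw) d
  have hprod : ∀ d : ℕ, 0 < d → ∀ z ∈ L.Ω, ‖f z ^ d * G d z‖ ≤ r ^ 2 := fun d hd z hz => by
    rw [norm_mul, norm_pow]
    have h1 := pow_le_pow_left₀ (norm_nonneg _) (hfb z (subset_closure hz)) d
    have h2 : r ^ d ≤ r := by simpa using pow_le_pow_of_le_one hr0.le hr1.le hd
    calc ‖f z‖ ^ d * ‖G d z‖ ≤ r * r :=
          mul_le_mul (h1.trans h2) ((hGb d z hz).trans h2) (norm_nonneg _) hr0.le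
      _ = r ^ 2 := by ring
  obtain ⟨n, hn⟩ := exists_pow_lt_of_lt_one
    (show 0 < (1 - 2 / k₀) * (1 / 8) / (2 * (K * M ^ 2)) by
      have : 2 / k₀ < 1 := by rw [div_lt_one (by linarith)]; linarith
      have : 0 < 1 - 2 / k₀ := by linarith
      positivity) (show (1 / 2 : ℝ) < 1 by norm_num)
  set ζ : ℂ → ℂ := fun z => f z * L.tr f z with hζ
  set a : ℂ → ℂ := L.serA f n with ha
  set e : ℂ → ℂ := fun z => f z ^ (n + 1) * G (n + 1) z with he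
  have hG1 : G 1 = L.tr f := by simp [hG]
  have hζd : DifferentiableOn ℂ ζ L.Ω := by
    rw [hζ, ← hG1]; exact hfΩ.mul (hGd 1)
  have had : DifferentiableOn ℂ a L.Ω := L.differentiableOn_serA hsub hfd n
  have hed : DifferentiableOn ℂ e L.Ω := (hfΩ.pow _).mul (hGd _)
  have hζb : ∀ z ∈ L.Ω, ‖ζ z‖ ≤ r ^ 2 := fun z hz => by
    have := hprod 1 one_pos z hz
    rwa [pow_one, hG1] at this
  have hab : ∀ z ∈ L.Ω, ‖a z‖ ≤ r ^ 2 := fun z hz =>
    L.norm_serA_le n (sq_nonneg r) fun d hd => hprod d hd z hz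
  -- resolvent functions
  have hres : ∀ q : ℂ → ℂ, DifferentiableOn ℂ q L.Ω → (∀ z ∈ L.Ω, ‖q z‖ ≤ r ^ 2) →
      (∀ z ∈ L.Ω, 1 - q z ≠ 0) ∧ DifferentiableOn ℂ (fun z => (1 - q z)⁻¹) L.Ω ∧
      (∀ z ∈ L.Ω, ‖(1 - q z)⁻¹‖ ≤ M) ∧ 1 / 8 ≤ (φ fun z => (1 - q z)⁻¹).re := fun q hqd hqb =>
    L.resolvent_facts D hev hFΩ (fun z hz => hF1 z (subset_closure hz)) hspos hxT hxv hx1 hr0 hr1
      hM hε hclose hqd hqb
  obtain ⟨hune, hud, hub, hU8⟩ := hres a had hab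
  obtain ⟨hvne, hvd, hvb, hV8⟩ := hres ζ hζd hζb
  set u : ℂ → ℂ := fun z => (1 - a z)⁻¹ with hu
  set v : ℂ → ℂ := fun z => (1 - ζ z)⁻¹ with hv
  have hfx : D.app f x = (k : ℂ) • y := by
    rw [hf, D.app_smul, hy, hk, smul_smul]
    congr 1; push_cast; field_simp
  have hkey := L.key_eval D hev hW hUo hUc hsub hfd (fun z hz => (hfb z hz).trans hr1.le) n u v
    (fun i => mul_inv_cancel₀ (hune _ (hev i))) (fun i => mul_inv_cancel₀ (hvne _ (hev i)))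
    (show k ≠ 0 by linarith) x y hfx hyy
  -- error term
  have herr : |(φ fun z => (1 / 2 : ℂ) ^ n * (u z * v z * e z)).re| ≤ (1 / 2 : ℝ) ^ n * (K * M ^ 2) := by
    have hd : DifferentiableOn ℂ (fun z => u z * v z * e z) L.Ω := (hud.mul hvd).mul hed
    have hb : ∀ z ∈ L.Ω, ‖u z * v z * e z‖ ≤ M ^ 2 := fun z hz => by
      rw [norm_mul, norm_mul]
      have he1 : ‖e z‖ ≤ 1 := (hprod (n + 1) (Nat.succ_pos n) z hz).trans (by nlinarith)
      calc ‖u z‖ * ‖v z‖ * ‖e z‖ ≤ M * M * 1 :=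
            mul_le_mul (mul_le_mul (hub z hz) (hvb z hz) (norm_nonneg _) hMpos.le) he1 (norm_nonneg _)
              (by positivity)
        _ = M ^ 2 := by ring
    have h1 := L.norm_le_best_mul D hev hd (pow_pos hMpos 2) hb x
    refine (Complex.abs_re_le_norm _).trans ?_
    simp only [hφ]
    rw [D.app_smul, inner_smul_right, norm_mul, norm_pow, norm_div, norm_one, Complex.norm_ofNat]
    gcongr
    refine (norm_inner_le_norm _ _).trans ?_
    rw [hx1, one_mul]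
    simpa [hx1] using h1
  exact final_arith hk₀2 hk₀k hU8 (by linarith [hV8]) (show 0 < K * M ^ 2 by positivity) hn herr hkey

end Loop

end Vale.Agent.P123
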