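import Vale.Agent.P123.Loop

/-!
# The key positivity inequality and the bound `2` for diagonalisable operators
-/

open Complex MeasureTheory Set Filter Topology
open scoped Real ComplexConjugate InnerProductSpace

noncomputable section

namespace Vale.Agent.P123

variable {E : Type*} [NormedAddCommGroup E] [InnerProductSpace ℂ E] {ι : Type*} [Fintype ι]
  [DecidableEq ι]

/-- An eigen-decomposition of an operator. -/
structure EigenData (E : Type*) [NormedAddCommGroup E] [InnerProductSpace ℂ E]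
    (ι : Type*) [Fintype ι] [DecidableEq ι] where
  P : ι → E →L[ℂ] E
  ev : ι → ℂ
  sum_eq : ∑ i, P i = 1
  mul_eq : ∀ i j, P i * P j = if i = j then P i else 0

namespace EigenData

variable (D : EigenData E ι)

/-- functional calculus -/
def app (h : ℂ → ℂ) : E →L[ℂ] E := ∑ i, h (D.ev i) • D.P i

/-- the operator -/
def op : E →L[ℂ] E := D.app id

lemma app_apply (h : ℂ → ℂ) (v : E) : D.app h v = ∑ i, h (D.ev i) • D.P i v := by
  simp [app, ContinuousLinearMap.sum_apply]

lemma app_mul (g h : ℂ → ℂ) : D.app g * D.app h = D.app (g * h) := by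
  simp only [app, Finset.sum_mul, Finset.mul_sum, smul_mul_assoc, mul_smul_comm, D.mul_eq,
    smul_ite, smul_zero, Finset.sum_ite_eq, Finset.mem_univ, if_true, Pi.mul_apply, smul_smul]
  exact Finset.sum_congr rfl fun i _ => by
    simp [smul_smul, mul_comm]

lemma app_comp (g h : ℂ → ℂ) (v : E) : D.app g (D.app h v) = D.app (fun z => g z * h z) v := by
  rw [← ContinuousLinearMap.comp_apply]
  show (D.app g * D.app h) v = _
  rw [D.app_mul]; rfl

lemma app_one : D.app (fun _ => 1) = 1 := by simp [app, D.sum_eq]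

lemma app_congr {g h : ℂ → ℂ} (e : ∀ i, g (D.ev i) = h (D.ev i)) : D.app g = D.app h := by
  simp [app, e]

lemma app_add (g h : ℂ → ℂ) (v : E) : D.app (fun z => g z + h z) v = D.app g v + D.app h v := by
  simp [app_apply, add_smul, Finset.sum_add_distrib]

lemma app_sub (g h : ℂ → ℂ) (v : E) : D.app (fun z => g z - h z) v = D.app g v - D.app h v := by
  simp [app_apply, sub_smul, Finset.sum_sub_distrib]

lemma app_smul (c : ℂ) (h : ℂ → ℂ) (v : E) : D.app (fun z => c * h z) v = c • D.app h v := by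
  simp [app_apply, Finset.smul_sum, smul_smul]

lemma app_fsum {κ : Type*} (s : Finset κ) (F : κ → ℂ → ℂ) (v : E) :
    D.app (fun z => ∑ k ∈ s, F k z) v = ∑ k ∈ s, D.app (F k) v := by
  classical
  induction s using Finset.induction_on with
  | empty => simp [app_apply]
  | insert a s ha ih => simp [Finset.sum_insert ha, D.app_add, ih]

lemma norm_app_le (h : ℂ → ℂ) {M : ℝ} (hM : ∀ i, ‖h (D.ev i)‖ ≤ M) :
    ‖D.app h‖ ≤ M * ∑ i, ‖D.P i‖ := by
  rw [app, Finset.mul_sum]
  refine (norm_sum_le _ _).trans (Finset.sum_le_sum fun i _ => ?_)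
  rw [norm_smul]
  exact mul_le_mul_of_nonneg_right (hM i) (norm_nonneg _)

end EigenData

namespace Loop

variable (L : Loop) (D : EigenData E ι)

/-- the sesquilinear form `⟪u, R v⟫ + ⟪R u, v⟫`, `R` the kernel applied to the operator -/
def form (t : ℝ) (u v : E) : ℂ := ⟪u, D.app (L.kern t) v⟫_ℂ + ⟪D.app (L.kern t) u, v⟫_ℂ

lemma conj_form (t : ℝ) (u v : E) : conj (L.form D t u v) = L.form D t v u := by
  simp only [form, map_add, inner_conj_symm]
  ring

lemma form_self_nonneg (hev : ∀ i, D.ev i ∈ L.Ω)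
    (hW : ∀ v : E, ‖v‖ = 1 → ⟪v, D.op v⟫_ℂ ∈ L.Ω) (t : ℝ) (v : E) :
    0 ≤ (L.form D t v v).re := by
  set u := D.app (fun z => (L.γ t - z)⁻¹) v with hu
  have hv : v = D.app (fun z => L.γ t - z) u := by
    rw [hu, D.app_comp, D.app_congr (h := fun _ => 1), D.app_one]
    · rfl
    · intro i; exact mul_inv_cancel₀ (L.ne_of_mem (hev i) t)
  have hv' : v = L.γ t • u - D.op u := by
    conv_lhs => rw [hv]
    rw [D.app_sub]
    congr 1
    rw [show (fun _ : ℂ => L.γ t) = fun z => L.γ t * (fun _ => 1) z by simp, D.app_smul, D.app_one]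
    rfl
  have hR : D.app (L.kern t) v = (-I * L.γ' t) • u := by
    rw [hu, ← D.app_smul]
    rfl
  have key : 0 ≤ (⟪v, D.app (L.kern t) v⟫_ℂ).re := by
    rw [hR]
    rcases eq_or_ne u 0 with h | h
    · simp [h]
    · have hn : 0 < ‖u‖ := norm_pos_iff.2 h
      set w := ⟪((‖u‖ : ℂ)⁻¹ • u), D.op ((‖u‖ : ℂ)⁻¹ • u)⟫_ℂ with hw
      have hwm : w ∈ L.Ω := hW _ (by simp [norm_smul, hn.ne'])
      have hw' : w = ((‖u‖ : ℂ) ^ 2)⁻¹ * ⟪u, D.op u⟫_ℂ := by
        rw [hw, map_smul, inner_smul_left, inner_smul_right, map_inv₀, Complex.conj_ofReal]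
        ring
      have h1 : ⟪u, v⟫_ℂ = (‖u‖ : ℂ) ^ 2 * (L.γ t - w) := by
        rw [hv', inner_sub_right, inner_smul_right, inner_self_eq_norm_sq_to_K, hw']
        have : (‖u‖ : ℂ) ≠ 0 := by simp [hn.ne']
        simp only [RCLike.ofReal_eq_complex_ofReal] at *
        field_simp
      have h2 : ⟪v, (-I * L.γ' t) • u⟫_ℂ
          = conj (conj (-I * L.γ' t) * ((‖u‖ : ℂ) ^ 2 * (L.γ t - w))) := by
        rw [inner_smul_right, ← inner_conj_symm v u, h1]
        simp
      rw [h2, Complex.conj_re]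
      have := L.tangent t w (subset_closure hwm)
      have e : (conj (-I * L.γ' t) * ((‖u‖ : ℂ) ^ 2 * (L.γ t - w))).re
          = ‖u‖ ^ 2 * (conj (-I * L.γ' t) * (L.γ t - w)).re := by
        rw [show conj (-I * L.γ' t) * ((‖u‖ : ℂ) ^ 2 * (L.γ t - w))
          = ((‖u‖ ^ 2 : ℝ) : ℂ) * (conj (-I * L.γ' t) * (L.γ t - w)) by push_cast; ring,
          Complex.re_ofReal_mul]
      rw [e]; positivity
  have : L.form D t v v = ⟪v, D.app (L.kern t) v⟫_ℂ + conj ⟪v, D.app (L.kern t) v⟫_ℂ := by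
    rw [form, inner_conj_symm]
  rw [this, Complex.add_re, Complex.conj_re]
  linarith

lemma continuous_form (hev : ∀ i, D.ev i ∈ L.Ω) (u v : E) :
    Continuous fun t => L.form D t u v := by
  simp only [form, D.app_apply, inner_sum, sum_inner, inner_smul_left, inner_smul_right]
  exact (continuous_finsetSum _ fun i _ => (L.continuous_kern (hev i)).mul continuous_const).add
    (continuous_finsetSum _ fun i _ =>
      (continuous_conj.comp (L.continuous_kern (hev i))).mul continuous_const)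

lemma integral_form (hev : ∀ i, D.ev i ∈ L.Ω) {U : Set ℂ} (hU : IsOpen U) (hUc : Convex ℝ U)
    (hsub : closure L.Ω ⊆ U) {f : ℂ → ℂ} (hf : DifferentiableOn ℂ f U) (u v : E) :
    ∫ t in (0:ℝ)..2 * π, f (L.γ t) * L.form D t u v
      = 2 * π * (⟪u, D.app f v⟫_ℂ + ⟪D.app (L.tr f) u, v⟫_ℂ) := by
  have hfc : Continuous fun t => f (L.γ t) :=
    hf.continuousOn.comp_continuous L.continuous_γ fun t => hsub (L.mem_closure t)
  have hkc : ∀ i, Continuous fun t => conj (L.kern t (D.ev i)) := fun i =>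
    continuous_conj.comp (L.continuous_kern (hev i))
  have e : ∀ t, f (L.γ t) * L.form D t u v = ∑ i, (⟪u, D.P i v⟫_ℂ * (f (L.γ t) * L.kern t (D.ev i))
      + ⟪D.P i u, v⟫_ℂ * (f (L.γ t) * conj (L.kern t (D.ev i)))) := by
    intro t
    simp only [form, D.app_apply, inner_sum, sum_inner, inner_smul_left, inner_smul_right,
      ← Finset.sum_add_distrib, Finset.mul_sum]
    exact Finset.sum_congr rfl fun i _ => by ring
  simp_rw [e]
  rw [intervalIntegral.integral_finsetSum]
  swap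
  · intro i _
    exact ((continuous_const.mul (hfc.mul (L.continuous_kern (hev i)))).add
      (continuous_const.mul (hfc.mul (hkc i)))).intervalIntegrable _ _
  simp only [D.app_apply, inner_sum, sum_inner, inner_smul_left, inner_smul_right,
    ← Finset.sum_add_distrib, Finset.mul_sum]
  refine Finset.sum_congr rfl fun i _ => ?_
  rw [intervalIntegral.integral_add
      (f := fun t => ⟪u, D.P i v⟫_ℂ * (f (L.γ t) * L.kern t (D.ev i)))
      (g := fun t => ⟪D.P i u, v⟫_ℂ * (f (L.γ t) * conj (L.kern t (D.ev i))))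
      ((continuous_const.mul (hfc.mul (L.continuous_kern (hev i)))).intervalIntegrable _ _)
      ((continuous_const.mul (hfc.mul (hkc i))).intervalIntegrable _ _),
    intervalIntegral.integral_const_mul, intervalIntegral.integral_const_mul,
    L.cauchy hU hUc hsub hf (hev i), L.integral_conj_kern]
  ring

lemma form_combine (t : ℝ) (u v : E) (c : ℂ) :
    L.form D t (u + c • v) (u + c • v) = L.form D t u u + c * L.form D t u v
      + conj c * L.form D t v u + (c * conj c) * L.form D t v v := by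
  simp only [form, map_add, map_smul, inner_add_left, inner_add_right, inner_smul_left,
    inner_smul_right]
  ring

lemma form_add_right (t : ℝ) (u v w : E) :
    L.form D t u (v + w) = L.form D t u v + L.form D t u w := by
  simp only [form, map_add, inner_add_right]; ring

lemma form_smul_right (t : ℝ) (u v : E) (c : ℂ) :
    L.form D t u (c • v) = c * L.form D t u v := by
  simp only [form, map_smul, inner_smul_right]; ring

lemma re_conj_mul_form (t : ℝ) (u v : E) (c : ℂ) :
    (conj c * L.form D t u v).re = (c * L.form D t v u).re := by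
  rw [← Complex.conj_re (c * L.form D t v u), map_mul, L.conj_form D t v u]

/-- Pointwise positivity behind the key inequality. -/
lemma pointwise_nonneg (hev : ∀ i, D.ev i ∈ L.Ω)
    (hW : ∀ v : E, ‖v‖ = 1 → ⟪v, D.op v⟫_ℂ ∈ L.Ω) (t : ℝ) {c : ℂ} (hc : ‖c‖ ≤ 1)
    {κ : Type*} (s : Finset κ) (w : κ → ℝ) (hw : ∀ k ∈ s, 0 ≤ w k) (hw1 : ∑ k ∈ s, w k ≤ 1)
    (d : κ → ℕ) (p : κ → E) (a b : E) :
    0 ≤ ∑ k ∈ s, w k * ((L.form D t (p k) (p k)).re
          + 2 * (c ^ d k * L.form D t a (p k)).re + 2 * (c ^ (d k + 1) * L.form D t b (p k)).re)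
      + (L.form D t a a).re + (L.form D t b b).re + 2 * (c * L.form D t b a).re := by
  set q := a + conj c • b with hq
  set Q := (L.form D t q q).re with hQ
  have hq0 : 0 ≤ Q := L.form_self_nonneg D hev hW t q
  have hb0 : 0 ≤ (L.form D t b b).re := L.form_self_nonneg D hev hW t b
  have hQe : Q + (1 - ‖c‖ ^ 2) * (L.form D t b b).re
      = (L.form D t a a).re + (L.form D t b b).re + 2 * (c * L.form D t b a).re := by
    have e := congrArg Complex.re (L.form_combine D t a b (conj c))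
    rw [Complex.conj_conj, Complex.add_re, Complex.add_re, Complex.add_re,
      L.re_conj_mul_form D t a b c,
      show conj c * c = ((‖c‖ ^ 2 : ℝ) : ℂ) by rw [mul_comm, Complex.mul_conj']; push_cast; ring,
      Complex.re_ofReal_mul, ← hq, ← hQ] at e
    linarith
  have hterm : ∀ k ∈ s, (L.form D t (p k + conj c ^ d k • q) (p k + conj c ^ d k • q)).re
      = (L.form D t (p k) (p k)).re + 2 * (c ^ d k * L.form D t a (p k)).re
        + 2 * (c ^ (d k + 1) * L.form D t b (p k)).re + (‖c‖ ^ d k) ^ 2 * Q := by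
    intro k _
    have e := congrArg Complex.re (L.form_combine D t (p k) q (conj c ^ d k))
    have hcc : conj c ^ d k * c ^ d k = (((‖c‖ ^ d k) ^ 2 : ℝ) : ℂ) := by
      rw [← mul_pow, mul_comm (conj c) c, Complex.mul_conj']; push_cast; ring
    have h1 : (conj c ^ d k * L.form D t (p k) q).re = (c ^ d k * L.form D t q (p k)).re := by
      rw [← map_pow]; exact L.re_conj_mul_form D t _ _ _
    have h2 : (c ^ d k * L.form D t q (p k)).re
        = (c ^ d k * L.form D t a (p k)).re + (c ^ (d k + 1) * L.form D t b (p k)).re := by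
      rw [← Complex.add_re]; congr 1
      simp only [hq, form, map_add, map_smul, inner_add_left, inner_smul_left, Complex.conj_conj,
        pow_succ]
      ring
    simp only [Complex.add_re, map_pow, Complex.conj_conj, hcc, Complex.re_ofReal_mul] at e
    rw [e, h1, h2, ← hQ]; ring
  have hsum : 0 ≤ ∑ k ∈ s, w k *
      (L.form D t (p k + conj c ^ d k • q) (p k + conj c ^ d k • q)).re :=
    Finset.sum_nonneg fun k hk => mul_nonneg (hw k hk) (L.form_self_nonneg D hev hW t _)
  rw [Finset.sum_congr rfl fun k hk => by rw [hterm k hk, mul_add]] at hsum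
  rw [Finset.sum_add_distrib] at hsum
  have hle : ∑ k ∈ s, w k * ((‖c‖ ^ d k) ^ 2 * Q) ≤ Q := by
    calc ∑ k ∈ s, w k * ((‖c‖ ^ d k) ^ 2 * Q) ≤ ∑ k ∈ s, w k * Q := by
          refine Finset.sum_le_sum fun k hk => mul_le_mul_of_nonneg_left ?_ (hw k hk)
          exact mul_le_of_le_one_left hq0 (pow_le_one₀ (by positivity) (pow_le_one₀ (norm_nonneg _) hc))
      _ = (∑ k ∈ s, w k) * Q := by rw [Finset.sum_mul]
      _ ≤ Q := mul_le_of_le_one_left hq0 hw1
  have hb1 : 0 ≤ (1 - ‖c‖ ^ 2) * (L.form D t b b).re :=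
    mul_nonneg (by nlinarith [norm_nonneg c]) hb0
  linarith

/-- `∑ 2^{-(k+1)} f^{k+1} tr (f^{k+1})` -/
def serA (f : ℂ → ℂ) (n : ℕ) (z : ℂ) : ℂ :=
  ∑ k ∈ Finset.range n, (1 / 2 : ℂ) ^ (k + 1) * (f z ^ (k + 1) * L.tr (fun w => f w ^ (k + 1)) z)

/-- `∑ 2^{-(k+1)} f^{k+1} tr (f^{k+2})` -/
def serB (f : ℂ → ℂ) (n : ℕ) (z : ℂ) : ℂ :=
  ∑ k ∈ Finset.range n, (1 / 2 : ℂ) ^ (k + 1) * (f z ^ (k + 1) * L.tr (fun w => f w ^ (k + 2)) z)

lemma mul_serB (f : ℂ → ℂ) (n : ℕ) (z : ℂ) :
    f z * L.serB f n z = 2 * L.serA f n z - f z * L.tr f z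
      + (1 / 2 : ℂ) ^ n * (f z ^ (n + 1) * L.tr (fun w => f w ^ (n + 1)) z) := by
  induction n with
  | zero => simp [serA, serB]
  | succ m ih =>
    have eA : L.serA f (m + 1) z = L.serA f m z
        + (1 / 2 : ℂ) ^ (m + 1) * (f z ^ (m + 1) * L.tr (fun w => f w ^ (m + 1)) z) :=
      Finset.sum_range_succ _ _
    have eB : L.serB f (m + 1) z = L.serB f m z
        + (1 / 2 : ℂ) ^ (m + 1) * (f z ^ (m + 1) * L.tr (fun w => f w ^ (m + 2)) z) :=
      Finset.sum_range_succ _ _
    rw [eA, eB, mul_add, ih]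
    ring

lemma integral_re_form (hev : ∀ i, D.ev i ∈ L.Ω) {U : Set ℂ} (hU : IsOpen U) (hUc : Convex ℝ U)
    (hsub : closure L.Ω ⊆ U) {f : ℂ → ℂ} (hf : DifferentiableOn ℂ f U) (u v : E) :
    ∫ t in (0:ℝ)..2 * π, (f (L.γ t) * L.form D t u v).re
      = 2 * π * (⟪u, D.app f v⟫_ℂ + ⟪D.app (L.tr f) u, v⟫_ℂ).re := by
  have hfc : Continuous fun t => f (L.γ t) :=
    hf.continuousOn.comp_continuous L.continuous_γ fun t => hsub (L.mem_closure t)
  have := Complex.reCLM.intervalIntegral_comp_comm (μ := volume) (a := (0:ℝ)) (b := 2 * π)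
    (f := fun t => f (L.γ t) * L.form D t u v)
    ((hfc.mul (L.continuous_form D hev u v)).intervalIntegrable _ _)
  simp only [Complex.reCLM_apply] at this
  rw [this, L.integral_form D hev hU hUc hsub hf u v]
  simp [Complex.mul_re]

lemma key (hev : ∀ i, D.ev i ∈ L.Ω) (hW : ∀ v : E, ‖v‖ = 1 → ⟪v, D.op v⟫_ℂ ∈ L.Ω)
    {U : Set ℂ} (hU : IsOpen U) (hUc : Convex ℝ U) (hsub : closure L.Ω ⊆ U)
    {f : ℂ → ℂ} (hf : DifferentiableOn ℂ f U) (hf1 : ∀ z ∈ closure L.Ω, ‖f z‖ ≤ 1)
    (n : ℕ) (a b : E) :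
    0 ≤ (⟪a, D.app (fun z => 1 - L.serA f n z) a⟫_ℂ
      + ⟪a, D.app (fun z => L.tr f z - L.serB f n z) b⟫_ℂ
      + ⟪b, D.app (fun z => f z * (1 - L.serA f n z)) a⟫_ℂ
      + ⟪b, D.app (fun z => 1 - f z * L.serB f n z) b⟫_ℂ).re := by
  set G : ℕ → ℂ → ℂ := fun d => L.tr (fun w => f w ^ d) with hG
  set p : ℕ → E := fun k => -(D.app (G (k + 1)) a + D.app (G (k + 2)) b) with hp
  set w : ℕ → ℝ := fun k => (1 / 2 : ℝ) ^ (k + 1) with hwdef
  have hw1 : ∑ k ∈ Finset.range n, w k ≤ 1 := by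
    have : ∀ m, ∑ k ∈ Finset.range m, w k = 1 - (1 / 2 : ℝ) ^ m := by
      intro m
      induction m with
      | zero => simp
      | succ m ih => rw [Finset.sum_range_succ, ih]; simp only [hwdef]; ring
    rw [this]; linarith [pow_nonneg (show (0:ℝ) ≤ 1 / 2 by norm_num) n]
  have hfc : Continuous fun t => f (L.γ t) :=
    hf.continuousOn.comp_continuous L.continuous_γ fun t => hsub (L.mem_closure t)
  have hre : ∀ (d : ℕ) (u v : E), Continuous fun t => (f (L.γ t) ^ d * L.form D t u v).re :=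
    fun d u v => Complex.continuous_re.comp ((hfc.pow d).mul (L.continuous_form D hev u v))
  have hpow : ∀ (d : ℕ) (u v : E), ∫ t in (0:ℝ)..2 * π, (f (L.γ t) ^ d * L.form D t u v).re
      = 2 * π * (⟪u, D.app (fun z => f z ^ d) v⟫_ℂ + ⟪D.app (G d) u, v⟫_ℂ).re :=
    fun d u v => L.integral_re_form D hev hU hUc hsub (hf.pow d) u v
  have hself : ∀ v : E, ∫ t in (0:ℝ)..2 * π, (L.form D t v v).re = 2 * π * (2 * (⟪v, v⟫_ℂ).re) := by
    intro v
    have h := hpow 0 v v
    simp only [pow_zero, one_mul] at h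
    rw [h]
    have hone : D.app (G 0) = 1 := by
      rw [← D.app_one]
      refine D.app_congr fun i => ?_
      simp only [hG, tr, pow_zero, map_one, one_mul, L.integral_kern (hev i)]
      field_simp
    rw [D.app_one, hone]
    simp [two_mul]
  set Φ : ℝ → ℝ := fun t => ∑ k ∈ Finset.range n, w k * ((f (L.γ t) ^ 0 * L.form D t (p k) (p k)).re
          + 2 * (f (L.γ t) ^ (k + 1) * L.form D t a (p k)).re
          + 2 * (f (L.γ t) ^ (k + 1 + 1) * L.form D t b (p k)).re)
      + (f (L.γ t) ^ 0 * L.form D t a a).re + (f (L.γ t) ^ 0 * L.form D t b b).re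
      + 2 * (f (L.γ t) ^ 1 * L.form D t b a).re with hΦ
  have hΦ0 : 0 ≤ ∫ t in (0:ℝ)..2 * π, Φ t := by
    refine intervalIntegral.integral_nonneg (by positivity) fun t _ => ?_
    have := L.pointwise_nonneg D hev hW t (hf1 _ (L.mem_closure t)) (Finset.range n) w
      (fun k _ => by positivity) hw1 (fun k => k + 1) p a b
    simpa [hΦ] using this
  have hI : ∫ t in (0:ℝ)..2 * π, Φ t
      = ∑ k ∈ Finset.range n, w k * ((2 * π * (2 * (⟪p k, p k⟫_ℂ).re))
          + 2 * (2 * π * (⟪a, D.app (fun z => f z ^ (k + 1)) (p k)⟫_ℂ + ⟪D.app (G (k + 1)) a, p k⟫_ℂ).re)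
          + 2 * (2 * π * (⟪b, D.app (fun z => f z ^ (k + 2)) (p k)⟫_ℂ + ⟪D.app (G (k + 2)) b, p k⟫_ℂ).re))
      + 2 * π * (2 * (⟪a, a⟫_ℂ).re) + 2 * π * (2 * (⟪b, b⟫_ℂ).re)
      + 2 * (2 * π * (⟪b, D.app (fun z => f z ^ 1) a⟫_ℂ + ⟪D.app (G 1) b, a⟫_ℂ).re) := by
    have hc1 : ∀ k, Continuous fun t => w k * ((f (L.γ t) ^ 0 * L.form D t (p k) (p k)).re
          + 2 * (f (L.γ t) ^ (k + 1) * L.form D t a (p k)).re
          + 2 * (f (L.γ t) ^ (k + 1 + 1) * L.form D t b (p k)).re) := fun k =>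
      continuous_const.mul (((hre _ _ _).add (continuous_const.mul (hre _ _ _))).add
        (continuous_const.mul (hre _ _ _)))
    have hS : Continuous fun t => ∑ k ∈ Finset.range n,
        w k * ((f (L.γ t) ^ 0 * L.form D t (p k) (p k)).re
          + 2 * (f (L.γ t) ^ (k + 1) * L.form D t a (p k)).re
          + 2 * (f (L.γ t) ^ (k + 1 + 1) * L.form D t b (p k)).re) :=
      continuous_finsetSum _ fun k _ => hc1 k
    simp only [hΦ]
    rw [intervalIntegral.integral_add
        (g := fun t => 2 * (f (L.γ t) ^ 1 * L.form D t b a).re) ?i1 ?i2,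
      intervalIntegral.integral_add
        (g := fun t => (f (L.γ t) ^ 0 * L.form D t b b).re) ?i3 ?i4,
      intervalIntegral.integral_add (hS.intervalIntegrable _ _) ((hre 0 a a).intervalIntegrable _ _),
      intervalIntegral.integral_const_mul, hpow 1 b a,
      intervalIntegral.integral_finsetSum fun k _ => (hc1 k).intervalIntegrable _ _]
    case i1 => exact ((hS.add (hre 0 a a)).add (hre 0 b b)).intervalIntegrable _ _
    case i2 => exact (continuous_const.mul (hre 1 b a)).intervalIntegrable _ _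
    case i3 => exact (hS.add (hre 0 a a)).intervalIntegrable _ _
    case i4 => exact (hre 0 b b).intervalIntegrable _ _
    simp only [pow_zero, one_mul, hself]
    congr 3
    refine Finset.sum_congr rfl fun k _ => ?_
    have hc0 : Continuous fun t => (L.form D t (p k) (p k)).re :=
      Complex.continuous_re.comp (L.continuous_form D hev _ _)
    rw [intervalIntegral.integral_const_mul,
      intervalIntegral.integral_add
        (f := fun t => (L.form D t (p k) (p k)).re + 2 * (f (L.γ t) ^ (k + 1) * L.form D t a (p k)).re)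
        (g := fun t => 2 * (f (L.γ t) ^ (k + 1 + 1) * L.form D t b (p k)).re)
        ((hc0.add (continuous_const.mul (hre _ _ _))).intervalIntegrable _ _)
        ((continuous_const.mul (hre _ _ _)).intervalIntegrable _ _),
      intervalIntegral.integral_add (f := fun t => (L.form D t (p k) (p k)).re)
        (g := fun t => 2 * (f (L.γ t) ^ (k + 1) * L.form D t a (p k)).re)
        (hc0.intervalIntegrable _ _)
        ((continuous_const.mul (hre _ _ _)).intervalIntegrable _ _),
      intervalIntegral.integral_const_mul, intervalIntegral.integral_const_mul, hself, hpow, hpow]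
  rw [hI] at hΦ0
  have hterm : ∀ k, (2 * π * (2 * (⟪p k, p k⟫_ℂ).re))
          + 2 * (2 * π * (⟪a, D.app (fun z => f z ^ (k + 1)) (p k)⟫_ℂ + ⟪D.app (G (k + 1)) a, p k⟫_ℂ).re)
          + 2 * (2 * π * (⟪b, D.app (fun z => f z ^ (k + 2)) (p k)⟫_ℂ + ⟪D.app (G (k + 2)) b, p k⟫_ℂ).re)
      = -(4 * π) * (⟪a, D.app (fun z => f z ^ (k + 1) * G (k + 1) z) a
            + D.app (fun z => f z ^ (k + 1) * G (k + 2) z) b⟫_ℂ
          + ⟪b, D.app (fun z => f z * (f z ^ (k + 1) * G (k + 1) z)) a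
            + D.app (fun z => f z * (f z ^ (k + 1) * G (k + 2) z)) b⟫_ℂ).re := by
    intro k
    have e1 : ∀ (g : ℂ → ℂ), D.app g (p k)
        = -(D.app (fun z => g z * G (k + 1) z) a + D.app (fun z => g z * G (k + 2) z) b) := by
      intro g; simp only [hp, map_neg, map_add, D.app_comp]
    have e2 : (⟪D.app (G (k + 1)) a, p k⟫_ℂ).re + (⟪D.app (G (k + 2)) b, p k⟫_ℂ).re
        = -(⟪p k, p k⟫_ℂ).re := by
      rw [← Complex.add_re, ← inner_add_left, ← Complex.neg_re, ← inner_neg_left]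
      congr 2; simp [hp]
    rw [e1, e1]
    simp only [inner_neg_right, inner_add_right, Complex.add_re, Complex.neg_re]
    have e3 : (fun z => f z ^ (k + 2) * G (k + 1) z) = fun z => f z * (f z ^ (k + 1) * G (k + 1) z) := by
      funext z; ring
    have e4 : (fun z => f z ^ (k + 2) * G (k + 2) z) = fun z => f z * (f z ^ (k + 1) * G (k + 2) z) := by
      funext z; ring
    rw [e3, e4]
    linear_combination (4 * π) * e2
  simp only [hterm] at hΦ0
  have hA : ∀ (m : ℂ → ℂ) (v : E), D.app (fun z => m z * L.serA f n z) v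
      = ∑ k ∈ Finset.range n, ((w k : ℝ) : ℂ) • D.app (fun z => m z * (f z ^ (k + 1) * G (k + 1) z)) v := by
    intro m v
    simp_rw [← D.app_smul, ← D.app_fsum, serA, Finset.mul_sum]
    refine congrArg (fun g => D.app g v) (funext fun z => Finset.sum_congr rfl fun k _ => ?_)
    simp only [hwdef, hG]; push_cast; ring
  have hB : ∀ (m : ℂ → ℂ) (v : E), D.app (fun z => m z * L.serB f n z) v
      = ∑ k ∈ Finset.range n, ((w k : ℝ) : ℂ) • D.app (fun z => m z * (f z ^ (k + 1) * G (k + 2) z)) v := by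
    intro m v
    simp_rw [← D.app_smul, ← D.app_fsum, serB, Finset.mul_sum]
    refine congrArg (fun g => D.app g v) (funext fun z => Finset.sum_congr rfl fun k _ => ?_)
    simp only [hwdef, hG]; push_cast; ring
  have hA1 := hA (fun _ => 1)
  have hB1 := hB (fun _ => 1)
  simp only [one_mul] at hA1 hB1
  have hG1 : G 1 = L.tr f := by simp [hG]
  have hgoal : (⟪a, D.app (fun z => 1 - L.serA f n z) a⟫_ℂ
      + ⟪a, D.app (fun z => L.tr f z - L.serB f n z) b⟫_ℂ
      + ⟪b, D.app (fun z => f z * (1 - L.serA f n z)) a⟫_ℂ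
      + ⟪b, D.app (fun z => 1 - f z * L.serB f n z) b⟫_ℂ).re
      = (⟪a, a⟫_ℂ).re + (⟪b, b⟫_ℂ).re + (⟪b, D.app f a⟫_ℂ).re + (⟪a, D.app (L.tr f) b⟫_ℂ).re
        - ∑ k ∈ Finset.range n, w k * (⟪a, D.app (fun z => f z ^ (k + 1) * G (k + 1) z) a
            + D.app (fun z => f z ^ (k + 1) * G (k + 2) z) b⟫_ℂ
          + ⟪b, D.app (fun z => f z * (f z ^ (k + 1) * G (k + 1) z)) a
            + D.app (fun z => f z * (f z ^ (k + 1) * G (k + 2) z)) b⟫_ℂ).re := by
    have h1 : (fun z => f z * (1 - L.serA f n z)) = fun z => f z - f z * L.serA f n z := by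
      funext z; ring
    rw [h1]
    simp only [D.app_sub, D.app_one, hA1, hB1, hA f, hB f, ContinuousLinearMap.one_apply,
      inner_sub_right, inner_sum, inner_smul_right, Complex.add_re, Complex.sub_re, Complex.re_sum,
      Complex.re_ofReal_mul, inner_add_right, mul_add, Finset.sum_add_distrib]
    ring
  rw [hgoal]
  have hconj : (⟪D.app (G 1) b, a⟫_ℂ).re = (⟪a, D.app (L.tr f) b⟫_ℂ).re := by
    rw [hG1, ← inner_conj_symm, Complex.conj_re]
  have hpi := Real.pi_pos
  have e5 : ∀ k, w k * (-(4 * π) * (⟪a, D.app (fun z => f z ^ (k + 1) * G (k + 1) z) a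
            + D.app (fun z => f z ^ (k + 1) * G (k + 2) z) b⟫_ℂ
          + ⟪b, D.app (fun z => f z * (f z ^ (k + 1) * G (k + 1) z)) a
            + D.app (fun z => f z * (f z ^ (k + 1) * G (k + 2) z)) b⟫_ℂ).re)
      = -(4 * π) * (w k * (⟪a, D.app (fun z => f z ^ (k + 1) * G (k + 1) z) a
            + D.app (fun z => f z ^ (k + 1) * G (k + 2) z) b⟫_ℂ
          + ⟪b, D.app (fun z => f z * (f z ^ (k + 1) * G (k + 1) z)) a
            + D.app (fun z => f z * (f z ^ (k + 1) * G (k + 2) z)) b⟫_ℂ).re) := fun k => by ring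
  rw [Finset.sum_congr rfl fun k _ => e5 k, ← Finset.mul_sum] at hΦ0
  have ef : (fun z => f z ^ 1) = f := by funext z; rw [pow_one]
  rw [ef, Complex.add_re (⟪b, D.app f a⟫_ℂ), hconj] at hΦ0
  nlinarith [hΦ0, hpi]

end Loop

end Vale.Agent.P123
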