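import Vale.Agent.P123.Loop

/-!
# Smooth convex domains approximating a convex compact set
-/

open Complex MeasureTheory Set Filter Topology
open scoped Real ComplexConjugate

noncomputable section

namespace Vale.Agent.P123

/-- positive part raised to a power -/
def rampPow (n : ℕ) (x : ℝ) : ℝ := max x 0 ^ n

lemma continuous_rampPow (n : ℕ) : Continuous (rampPow n) :=
  (continuous_id.max continuous_const).pow n

lemma hasDerivAt_rampPow (m : ℕ) (x : ℝ) :
    HasDerivAt (rampPow (m + 2)) ((m + 2 : ℕ) * rampPow (m + 1) x) x := by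
  rcases lt_trichotomy x 0 with h | h | h
  · rw [rampPow, max_eq_right h.le, zero_pow (Nat.succ_ne_zero m), mul_zero]
    refine (hasDerivAt_const x (0:ℝ)).congr_of_eventuallyEq ?_
    filter_upwards [Iio_mem_nhds h] with y hy
    simp [rampPow, max_eq_right (le_of_lt (show y < 0 from hy))]
  · subst h
    have : rampPow (m + 1) 0 = 0 := by simp [rampPow]
    rw [this, mul_zero, hasDerivAt_iff_isLittleO]
    simp only [rampPow, max_self, zero_pow (Nat.succ_ne_zero (m + 1)), sub_zero, smul_zero]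
    refine Asymptotics.IsBigO.trans_isLittleO ?_ (Asymptotics.isLittleO_pow_id (show 1 < m + 2 by omega))
    refine Asymptotics.IsBigO.of_bound 1 (Eventually.of_forall fun y => ?_)
    rw [one_mul, norm_pow, norm_pow]
    refine pow_le_pow_left₀ (norm_nonneg _) ?_ _
    rw [Real.norm_eq_abs, Real.norm_eq_abs, abs_of_nonneg (le_max_right y 0)]
    exact max_le (le_abs_self y) (abs_nonneg y)
  · rw [rampPow, max_eq_left h.le]
    refine (hasDerivAt_pow (m + 2) x).congr_of_eventuallyEq ?_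
    filter_upwards [Ioi_mem_nhds h] with y hy
    simp [rampPow, max_eq_left (le_of_lt (show 0 < y from hy))]

lemma pow_tangent {a b : ℝ} (ha : 0 ≤ a) (hb : 0 ≤ b) (n : ℕ) :
    b ^ (n + 1) + (n + 1) * b ^ n * (a - b) ≤ a ^ (n + 1) := by
  induction n with
  | zero => simp
  | succ n ih =>
    have h := mul_le_mul_of_nonneg_left ih ha
    have h2 : 0 ≤ ((n : ℝ) + 1) * b ^ n * (a - b) ^ 2 := by positivity
    calc b ^ (n + 1 + 1) + ((n + 1 : ℕ) + 1) * b ^ (n + 1) * (a - b)
        = a * (b ^ (n + 1) + (n + 1) * b ^ n * (a - b)) - ((n : ℝ) + 1) * b ^ n * (a - b) ^ 2 := by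
          push_cast; ring
      _ ≤ a * a ^ (n + 1) := by linarith
      _ = a ^ (n + 1 + 1) := by ring

/-- Data for a smoothed polygon. -/
structure Poly (ι : Type*) [Fintype ι] where
  a : ι → ℂ
  m : ℕ
  cover : ∀ z : ℂ, z ≠ 0 → ∃ j, 0 < (conj (a j) * z).re

namespace Poly

variable {ι : Type*} [Fintype ι] (Q : Poly ι)

/-- the linear forms -/
def form (j : ι) (z : ℂ) : ℝ := (conj (Q.a j) * z).re

/-- the defining function -/
def gauge (z : ℂ) : ℝ := ∑ j, rampPow (Q.m + 2) (Q.form j z)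

lemma continuous_form (j : ι) : Continuous (Q.form j) :=
  Complex.continuous_re.comp (continuous_const.mul continuous_id)

lemma continuous_gauge : Continuous Q.gauge :=
  continuous_finsetSum _ fun j _ => (continuous_rampPow _).comp (Q.continuous_form j)

lemma gauge_smul {c : ℝ} (hc : 0 ≤ c) (z : ℂ) :
    Q.gauge ((c : ℂ) * z) = c ^ (Q.m + 2) * Q.gauge z := by
  rw [gauge, gauge, Finset.mul_sum]
  refine Finset.sum_congr rfl fun j _ => ?_
  have : Q.form j ((c : ℂ) * z) = c * Q.form j z := by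
    simp only [form]
    rw [show conj (Q.a j) * ((c : ℂ) * z) = (c : ℂ) * (conj (Q.a j) * z) by ring, Complex.re_ofReal_mul]
  rw [this, rampPow, rampPow, ← mul_pow, mul_max_of_nonneg _ _ hc, mul_zero]

/-- values on the unit circle -/
def S (t : ℝ) : ℝ := Q.gauge (Complex.exp (t * I))

lemma S_pos (t : ℝ) : 0 < Q.S t := by
  obtain ⟨j, hj⟩ := Q.cover _ (Complex.exp_ne_zero (t * I))
  refine Finset.sum_pos' (fun i _ => pow_nonneg (le_max_right _ _) _) ⟨j, Finset.mem_univ j, ?_⟩
  exact pow_pos (lt_max_of_lt_left hj) _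

lemma gauge_polar (z : ℂ) : Q.gauge z = ‖z‖ ^ (Q.m + 2) * Q.S (arg z) := by
  conv_lhs => rw [← Complex.norm_mul_exp_arg_mul_I z]
  exact Q.gauge_smul (norm_nonneg z) _

/-- derivative of `S` -/
def S' (t : ℝ) : ℝ :=
  ∑ j, ((Q.m + 2 : ℕ) * rampPow (Q.m + 1) (Q.form j (Complex.exp (t * I))))
    * Q.form j (Complex.exp (t * I) * I)

lemma hasDerivAt_cis (t : ℝ) :
    HasDerivAt (fun s : ℝ => Complex.exp (s * I)) (Complex.exp (t * I) * I) t := by
  have := ((Complex.ofRealCLM.hasDerivAt (x := t)).mul_const I).cexp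
  simpa using this

lemma hasDerivAt_form (j : ι) {c : ℝ → ℂ} {c' : ℂ} {t : ℝ} (h : HasDerivAt c c' t) :
    HasDerivAt (fun s => Q.form j (c s)) (Q.form j c') t :=
  Complex.reCLM.hasFDerivAt.comp_hasDerivAt t (h.const_mul _)

lemma hasDerivAt_gauge {c : ℝ → ℂ} {c' : ℂ} {t : ℝ} (h : HasDerivAt c c' t) :
    HasDerivAt (fun s => Q.gauge (c s))
      (∑ j, ((Q.m + 2 : ℕ) * rampPow (Q.m + 1) (Q.form j (c t))) * Q.form j c') t := by
  unfold gauge
  exact HasDerivAt.fun_sum fun j _ => (hasDerivAt_rampPow Q.m _).comp t (Q.hasDerivAt_form j h)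

lemma hasDerivAt_S (t : ℝ) : HasDerivAt Q.S (Q.S' t) t := Q.hasDerivAt_gauge (hasDerivAt_cis t)

lemma continuous_S : Continuous Q.S :=
  continuous_iff_continuousAt.2 fun t => (Q.hasDerivAt_S t).continuousAt

lemma continuous_S' : Continuous Q.S' := by
  unfold S'
  refine continuous_finsetSum _ fun j _ => ?_
  have hc : Continuous fun t : ℝ => Complex.exp (t * I) := by fun_prop
  exact (continuous_const.mul ((continuous_rampPow _).comp ((Q.continuous_form j).comp hc))).mul
    ((Q.continuous_form j).comp (hc.mul continuous_const))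

/-- exponent -/
def ex : ℝ := -(1 / ((Q.m + 2 : ℕ) : ℝ))

/-- radial function -/
def ρ (t : ℝ) : ℝ := Q.S t ^ Q.ex

/-- derivative of the radial function -/
def ρ' (t : ℝ) : ℝ := Q.S' t * Q.ex * Q.S t ^ (Q.ex - 1)

lemma hasDerivAt_ρ (t : ℝ) : HasDerivAt Q.ρ (Q.ρ' t) t :=
  (Q.hasDerivAt_S t).rpow_const (Or.inl (Q.S_pos t).ne')

lemma ρ_pos (t : ℝ) : 0 < Q.ρ t := Real.rpow_pos_of_pos (Q.S_pos t) _

lemma ρ_pow (t : ℝ) : Q.ρ t ^ (Q.m + 2) = (Q.S t)⁻¹ := by
  rw [ρ, ← Real.rpow_natCast, ← Real.rpow_mul (Q.S_pos t).le, ex]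
  have : (-(1 / ((Q.m + 2 : ℕ) : ℝ))) * ((Q.m + 2 : ℕ) : ℝ) = -1 := by field_simp
  rw [this, Real.rpow_neg_one]

/-- boundary curve -/
def curve (t : ℝ) : ℂ := (Q.ρ t : ℂ) * Complex.exp (t * I)

/-- derivative of the boundary curve -/
def curve' (t : ℝ) : ℂ := ((Q.ρ' t : ℂ) + Q.ρ t * I) * Complex.exp (t * I)

lemma hasDerivAt_curve (t : ℝ) : HasDerivAt Q.curve (Q.curve' t) t := by
  have := (Q.hasDerivAt_ρ t).ofReal_comp.mul (hasDerivAt_cis t)
  refine this.congr_deriv ?_
  simp only [curve']; ring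

lemma gauge_curve (t : ℝ) : Q.gauge (Q.curve t) = 1 := by
  rw [curve, Q.gauge_smul (Q.ρ_pos t).le, Q.ρ_pow]
  exact inv_mul_cancel₀ (Q.S_pos t).ne'

lemma gauge_convex : ConvexOn ℝ univ Q.gauge := by
  refine ⟨convex_univ, fun x _ y _ p q hp hq hpq => ?_⟩
  simp only [gauge, smul_eq_mul, Finset.mul_sum, ← Finset.sum_add_distrib]
  refine Finset.sum_le_sum fun j _ => ?_
  have hlin : Q.form j (p • x + q • y) = p * Q.form j x + q * Q.form j y := by
    simp [form, Complex.real_smul, mul_add, Complex.mul_re, Complex.mul_im]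
    ring
  rw [hlin]
  unfold rampPow
  calc max (p * Q.form j x + q * Q.form j y) 0 ^ (Q.m + 2)
      ≤ (p * max (Q.form j x) 0 + q * max (Q.form j y) 0) ^ (Q.m + 2) := by
        refine pow_le_pow_left₀ (le_max_right _ _) (max_le ?_ ?_) _
        · gcongr <;> exact le_max_left _ _
        · positivity
    _ ≤ p * max (Q.form j x) 0 ^ (Q.m + 2) + q * max (Q.form j y) 0 ^ (Q.m + 2) :=
        (convexOn_pow (Q.m + 2)).2 (le_max_right (Q.form j x) 0) (le_max_right (Q.form j y) 0) hp hq hpq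

lemma gauge_zero : Q.gauge 0 = 0 := by
  simp [gauge, form, rampPow]

lemma closure_sub : closure {z | Q.gauge z < 1} ⊆ {z | Q.gauge z ≤ 1} :=
  closure_minimal (fun z (hz : Q.gauge z < 1) => le_of_lt hz) (isClosed_le Q.continuous_gauge continuous_const)

lemma isBounded : Bornology.IsBounded {z | Q.gauge z < 1} := by
  obtain ⟨t₀, -, hmin⟩ := (isCompact_Icc (a := -π) (b := π)).exists_isMinOn
    (nonempty_Icc.2 (by linarith [Real.pi_pos])) Q.continuous_S.continuousOn
  refine (isBounded_iff_forall_norm_le (s := {z | Q.gauge z < 1})).2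
    ⟨max 1 (Q.S t₀)⁻¹, fun z hz => ?_⟩
  rcases le_or_gt ‖z‖ 1 with h | h
  · exact h.trans (le_max_left _ _)
  · refine le_trans ?_ (le_max_right _ _)
    have h1 : Q.S t₀ ≤ Q.S (arg z) := hmin ⟨(Complex.neg_pi_lt_arg z).le, Complex.arg_le_pi z⟩
    have h2 : ‖z‖ ≤ ‖z‖ ^ (Q.m + 2) := le_self_pow₀ h.le (by omega)
    have h3 : ‖z‖ ^ (Q.m + 2) * Q.S (arg z) < 1 := by rw [← Q.gauge_polar]; exact hz
    have := Q.S_pos t₀
    rw [← one_div, le_div_iff₀ this]
    calc ‖z‖ * Q.S t₀ ≤ ‖z‖ ^ (Q.m + 2) * Q.S (arg z) := by gcongr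
      _ ≤ 1 := h3.le

lemma tangent (t : ℝ) {w : ℂ} (hw : Q.gauge w ≤ 1) :
    0 ≤ (conj (-I * Q.curve' t) * (Q.curve t - w)).re := by
  set γ := Q.curve t with hγ
  set G : ℂ := ∑ j, (rampPow (Q.m + 1) (Q.form j γ) : ℂ) * Q.a j with hG
  have hlin : ∀ v, (conj G * v).re = ∑ j, rampPow (Q.m + 1) (Q.form j γ) * Q.form j v := by
    intro v
    simp only [hG, map_sum, map_mul, Complex.conj_ofReal, Finset.sum_mul, Complex.re_sum, mul_assoc,
      Complex.re_ofReal_mul, form]
  have h0 : (conj G * Q.curve' t).re = 0 := by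
    have h1 := Q.hasDerivAt_gauge (Q.hasDerivAt_curve t)
    rw [show (fun s => Q.gauge (Q.curve s)) = fun _ => (1:ℝ) from funext Q.gauge_curve] at h1
    have h2 := h1.unique (hasDerivAt_const t (1:ℝ))
    simp only [mul_assoc, ← Finset.mul_sum] at h2
    rw [← hγ, ← hlin] at h2
    exact (mul_eq_zero.1 h2).resolve_left (by positivity)
  have h1 : (conj G * γ).re = 1 := by
    rw [hlin, ← Q.gauge_curve t, gauge]
    refine Finset.sum_congr rfl fun j _ => ?_
    rw [← hγ]
    unfold rampPow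
    rcases le_total (Q.form j γ) 0 with h | h
    · simp [max_eq_right h]
    · rw [max_eq_left h]; ring
  have hle : (conj G * w).re ≤ 1 := by
    have hb : ∀ j, ((Q.m + 2 : ℕ) : ℝ) * (rampPow (Q.m + 1) (Q.form j γ) * Q.form j w)
        ≤ rampPow (Q.m + 2) (Q.form j w) + ((Q.m + 1 : ℕ) : ℝ) * rampPow (Q.m + 2) (Q.form j γ) := by
      intro j
      have hb0 : (0:ℝ) ≤ max (Q.form j γ) 0 := le_max_right _ _
      have ha0 : (0:ℝ) ≤ max (Q.form j w) 0 := le_max_right _ _
      have h := pow_tangent ha0 hb0 (Q.m + 1)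
      have hle' : max (Q.form j γ) 0 ^ (Q.m + 1) * Q.form j w
          ≤ max (Q.form j γ) 0 ^ (Q.m + 1) * max (Q.form j w) 0 :=
        mul_le_mul_of_nonneg_left (le_max_left _ _) (by positivity)
      unfold rampPow
      push_cast at h ⊢
      have e : max (Q.form j γ) 0 ^ (Q.m + 1) * max (Q.form j γ) 0 = max (Q.form j γ) 0 ^ (Q.m + 1 + 1) := by ring
      nlinarith
    have hs := Finset.sum_le_sum (s := Finset.univ) fun j _ => hb j
    rw [← Finset.mul_sum, Finset.sum_add_distrib, ← Finset.mul_sum, ← hlin] at hs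
    change _ ≤ Q.gauge w + _ * Q.gauge γ at hs
    rw [hγ, Q.gauge_curve] at hs
    push_cast at hs
    nlinarith
  set ν := -I * Q.curve' t with hν
  have key : ∀ v, (conj G * v).re * Complex.normSq ν
      = (conj G * Q.curve' t).re * (conj (Q.curve' t) * v).re + (conj G * ν).re * (conj ν * v).re := by
    intro v
    simp only [hν, Complex.normSq_apply, Complex.mul_re, Complex.mul_im, Complex.conj_re, Complex.conj_im,
      Complex.neg_re, Complex.neg_im, Complex.I_re, Complex.I_im]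
    ring
  have hνγ : (conj ν * γ).re = Q.ρ t ^ 2 := by
    have he : Complex.normSq (Complex.exp (t * I)) = 1 := by
      rw [Complex.normSq_eq_norm_sq, Complex.norm_exp_ofReal_mul_I]; norm_num
    rw [Complex.normSq_apply] at he
    simp only [hν, hγ, curve, curve', Complex.mul_re, Complex.mul_im, Complex.conj_re, Complex.conj_im,
      Complex.neg_re, Complex.neg_im, Complex.I_re, Complex.I_im, Complex.add_re, Complex.add_im,
      Complex.ofReal_re, Complex.ofReal_im]
    linear_combination (Q.ρ t) ^ 2 * he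
  have hρ := Q.ρ_pos t
  have hνne : ν ≠ 0 := by
    intro h; rw [h, map_zero, zero_mul, Complex.zero_re] at hνγ; nlinarith
  have hnp : 0 < Complex.normSq ν := Complex.normSq_pos.2 hνne
  have k1 := key γ
  rw [h0, h1, hνγ, zero_mul, zero_add, one_mul] at k1
  have k2 := key (γ - w)
  rw [h0, zero_mul, zero_add, mul_sub (conj G) γ w, Complex.sub_re, h1] at k2
  have hcpos : 0 < (conj G * ν).re := by
    by_contra hc
    push Not at hc
    have : (conj G * ν).re * Q.ρ t ^ 2 ≤ 0 := mul_nonpos_of_nonpos_of_nonneg hc (sq_nonneg _)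
    linarith
  have hprod : 0 ≤ (conj G * ν).re * (conj ν * (γ - w)).re := by
    rw [← k2]; exact mul_nonneg (by linarith) hnp.le
  exact nonneg_of_mul_nonneg_right hprod hcpos

/-- the smoothed polygon as a `Loop` -/
def loop : Loop where
  γ := Q.curve
  γ' := Q.curve'
  Ω := {z | Q.gauge z < 1}
  isOpen := isOpen_lt Q.continuous_gauge continuous_const
  convex := by simpa using Q.gauge_convex.convex_lt 1
  bounded := Q.isBounded
  zero_mem := by simp [Q.gauge_zero]
  hasDeriv := Q.hasDerivAt_curve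
  cont' := by
    unfold curve' ρ' ρ
    have h1 : ∀ e : ℝ, Continuous fun t => Q.S t ^ e := fun e =>
      Q.continuous_S.rpow_const fun t => Or.inl (Q.S_pos t).ne'
    exact ((Complex.continuous_ofReal.comp ((Q.continuous_S'.mul continuous_const).mul (h1 _))).add
      ((Complex.continuous_ofReal.comp (h1 _)).mul continuous_const)).mul (by fun_prop)
  periodic := by
    intro t
    have he : Complex.exp (((t + 2 * π : ℝ) : ℂ) * I) = Complex.exp (t * I) := by
      rw [show (((t + 2 * π : ℝ) : ℂ) * I) = t * I + 2 * π * I by push_cast; ring, Complex.exp_add,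
        Complex.exp_two_pi_mul_I, mul_one]
    simp only [curve, ρ, S, he]
  mem_closure := by
    intro t
    have h : Tendsto (fun s : ℝ => (s : ℂ) * Q.curve t) (𝓝[<] 1) (𝓝 (Q.curve t)) := by
      have := ((Complex.continuous_ofReal.tendsto 1).mul_const (Q.curve t)).mono_left
        (nhdsWithin_le_nhds (s := Iio (1:ℝ)))
      simpa using this
    refine mem_closure_of_tendsto h ?_
    filter_upwards [Ioo_mem_nhdsLT (show (0:ℝ) < 1 by norm_num)] with s hs
    show Q.gauge _ < 1
    rw [Q.gauge_smul hs.1.le, Q.gauge_curve, mul_one]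
    exact pow_lt_one₀ hs.1.le hs.2 (by omega)
  notMem := fun t h => lt_irrefl (1:ℝ) (by simpa [Q.gauge_curve] using h)
  frontier_sub := by
    intro z hz
    have h : Q.gauge z = 1 := by
      refine le_antisymm (Q.closure_sub hz.1) (not_lt.1 fun h => hz.2 ?_)
      rw [(isOpen_lt Q.continuous_gauge continuous_const).interior_eq]
      exact h
    refine ⟨arg z, ?_⟩
    have hz' : ‖z‖ = Q.ρ (arg z) := by
      refine (pow_left_inj₀ (norm_nonneg _) (Q.ρ_pos _).le (show Q.m + 2 ≠ 0 by omega)).1 ?_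
      rw [Q.ρ_pow]
      rw [Q.gauge_polar] at h
      exact eq_inv_of_mul_eq_one_left h
    rw [curve, ← hz', Complex.norm_mul_exp_arg_mul_I]
  inj := by
    intro a t ht h
    have hn := congrArg norm h
    simp only [curve, norm_mul, Complex.norm_real, Complex.norm_exp_ofReal_mul_I, mul_one,
      Real.norm_of_nonneg (Q.ρ_pos _).le] at hn
    rw [curve, curve, hn] at h
    have h' := mul_left_cancel₀ (by simp [(Q.ρ_pos a).ne']) h
    obtain ⟨n, hn'⟩ := Complex.exp_eq_exp_iff_exists_int.1 h'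
    have h2 := congrArg Complex.im hn'
    simp at h2
    have h3 : (0:ℝ) < n := by nlinarith [ht.1, Real.pi_pos]
    have h4 : (n:ℝ) < 1 := by nlinarith [ht.2, Real.pi_pos]
    have : 0 < n ∧ n < 1 := ⟨by exact_mod_cast h3, by exact_mod_cast h4⟩
    omega
  deriv_ne := by
    intro t h
    simp only [curve', mul_eq_zero, Complex.exp_ne_zero, or_false] at h
    have := congrArg Complex.im h
    simp at this
    exact (Q.ρ_pos t).ne' this
  tangent := fun t w hw => Q.tangent t (Q.closure_sub hw)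
  winding := by
    set g : ℝ → ℂ := fun t => (Real.log (Q.ρ t) : ℂ) + t * I with hg
    have hd : ∀ t, HasDerivAt g (Q.curve' t / Q.curve t) t := by
      intro t
      have h := ((Q.hasDerivAt_ρ t).log (Q.ρ_pos t).ne').ofReal_comp.add
        ((Complex.ofRealCLM.hasDerivAt (x := t)).mul_const I)
      refine h.congr_deriv ?_
      have hne : (Q.ρ t : ℂ) ≠ 0 := by simp [(Q.ρ_pos t).ne']
      simp only [curve', curve, Complex.ofRealCLM_apply, Complex.ofReal_one, one_mul]
      rw [mul_div_mul_right _ _ (Complex.exp_ne_zero _)]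
      push_cast; field_simp
    have hρc : Continuous Q.ρ := continuous_iff_continuousAt.2 fun t => (Q.hasDerivAt_ρ t).continuousAt
    have hρ'c : Continuous Q.ρ' := by
      unfold ρ'
      exact (Q.continuous_S'.mul continuous_const).mul
        (Q.continuous_S.rpow_const fun t => Or.inl (Q.S_pos t).ne')
    have hc : Continuous fun t => Q.curve' t / Q.curve t := by
      unfold curve curve'
      refine Continuous.div (by fun_prop) (by fun_prop) fun t => ?_
      simp [(Q.ρ_pos t).ne', Complex.exp_ne_zero]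
    rw [intervalIntegral.integral_eq_sub_of_hasDerivAt (fun t _ => hd t) (hc.intervalIntegrable _ _)]
    have hper : Q.ρ (2 * π) = Q.ρ 0 := by
      simp only [ρ, S]
      congr 2
      push_cast
      rw [Complex.exp_two_pi_mul_I]; simp
    simp [hg, hper]

end Poly

/-- Convex compact sets containing `0` are approximated from outside by smooth convex loops. -/
theorem exists_loop {K : Set ℂ} (hK : IsCompact K) (hKc : Convex ℝ K) (h0 : (0 : ℂ) ∈ K) {δ : ℝ}
    (hδ : 0 < δ) :
    ∃ L : Loop, K ⊆ L.Ω ∧ ∀ z ∈ closure L.Ω, ∃ k ∈ K, ‖z - k‖ < δ := by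
  obtain ⟨R₀, hR₀⟩ := hK.isBounded.exists_norm_le
  set R : ℝ := R₀ + 1 with hR
  have hR0 : 0 ≤ R₀ := (norm_nonneg (0:ℂ)).trans (hR₀ 0 h0)
  have hRpos : 0 < R := by linarith
  set B : Set ℂ := {z | δ ≤ Metric.infDist z K} ∩ Metric.closedBall 0 (2 * R) with hB
  have hBc : IsCompact B := (isCompact_closedBall _ _).inter_left
    (isClosed_le continuous_const (Metric.continuous_infDist_pt K))
  have hsep : ∀ w ∈ B, ∃ a : ℂ, (∀ k ∈ K, (conj a * k).re < 1) ∧ 1 < (conj a * w).re := by
    intro w hw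
    have hwK : w ∉ K := fun h => by
      have := hw.1
      rw [mem_setOf_eq, Metric.infDist_zero_of_mem h] at this
      linarith
    obtain ⟨f, s, hfK, hfw⟩ := geometric_hahn_banach_closed_point hKc hK.isClosed hwK
    have hs : 0 < s := by simpa using hfK 0 h0
    have hrep : ∀ v : ℂ, f v = v.re * f 1 + v.im * f I := by
      intro v
      conv_lhs => rw [show v = v.re • (1:ℂ) + v.im • I by simp [Complex.real_smul]]
      simp only [map_add, map_smul, smul_eq_mul]
    refine ⟨⟨f 1 / s, f I / s⟩, fun k hk => ?_, ?_⟩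
    · have := hfK k hk
      simp only [Complex.mul_re, Complex.conj_re, Complex.conj_im]
      rw [hrep] at this
      have : (k.re * f 1 + k.im * f I) / s < 1 := by rwa [div_lt_one hs]
      calc f 1 / s * k.re - -(f I / s) * k.im = (k.re * f 1 + k.im * f I) / s := by ring
        _ < 1 := this
    · simp only [Complex.mul_re, Complex.conj_re, Complex.conj_im]
      rw [hrep] at hfw
      calc 1 < (w.re * f 1 + w.im * f I) / s := by rwa [one_lt_div hs]
        _ = f 1 / s * w.re - -(f I / s) * w.im := by ring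
  choose! av hav1 hav2 using hsep
  obtain ⟨T, hT⟩ := hBc.elim_finite_subcover (fun w : B => {z | 1 < (conj (av w) * z).re})
    (fun w => isOpen_lt continuous_const (by fun_prop))
    (fun w hw => mem_iUnion.2 ⟨⟨w, hw⟩, hav2 w hw⟩)
  set box : Fin 4 → ℂ := ![(1 / R : ℝ), -(1 / R : ℝ), (1 / R : ℝ) * I, -((1 / R : ℝ) * I)] with hbox
  set a : T ⊕ Fin 4 → ℂ := Sum.elim (fun w => av w.1) box with ha
  have hbox' : ∀ (z : ℂ), (conj (box 0) * z).re = z.re / R ∧ (conj (box 1) * z).re = -(z.re / R) ∧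
      (conj (box 2) * z).re = z.im / R ∧ (conj (box 3) * z).re = -(z.im / R) := by
    intro z
    simp [hbox, div_eq_inv_mul]
    field_simp
    simp
  have hlt : ∀ j, ∀ k ∈ K, (conj (a j) * k).re < 1 := by
    intro j k hk
    rcases j with w | i
    · exact hav1 _ w.1.2 k hk
    · have h1 : |k.re| < R := ((Complex.abs_re_le_norm k).trans (hR₀ k hk)).trans_lt (by linarith)
      have h2 : |k.im| < R := ((Complex.abs_im_le_norm k).trans (hR₀ k hk)).trans_lt (by linarith)
      rw [abs_lt] at h1 h2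
      obtain ⟨e0, e1, e2, e3⟩ := hbox' k
      show (conj (box i) * k).re < 1
      fin_cases i
      · simp only [Fin.zero_eta]; rw [e0, div_lt_one hRpos]; linarith
      · simp only [Fin.mk_one]; rw [e1, ← neg_div, div_lt_one hRpos]; linarith
      · simp only [Fin.reduceFinMk]; rw [e2, div_lt_one hRpos]; linarith
      · simp only [Fin.reduceFinMk]; rw [e3, ← neg_div, div_lt_one hRpos]; linarith
  have hq : ∀ j, ∃ q : ℝ, 0 ≤ q ∧ q < 1 ∧ ∀ k ∈ K, (conj (a j) * k).re ≤ q := by
    intro j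
    obtain ⟨k₀, hk₀, hmax⟩ := hK.exists_isMaxOn ⟨0, h0⟩
      (f := fun k => (conj (a j) * k).re) (by fun_prop)
    exact ⟨max ((conj (a j) * k₀).re) 0, le_max_right _ _, max_lt (hlt j k₀ hk₀) one_pos,
      fun k hk => (hmax hk).trans (le_max_left _ _)⟩
  choose q hq0 hq1 hq2 using hq
  have hm : ∀ᶠ n in atTop, ∑ j, q j ^ (n + 2) < 1 := by
    have : Tendsto (fun n : ℕ => ∑ j, q j ^ (n + 2)) atTop (𝓝 (∑ _j : T ⊕ Fin 4, (0:ℝ))) :=
      tendsto_finsetSum _ fun j _ =>
        (tendsto_pow_atTop_nhds_zero_of_lt_one (hq0 j) (hq1 j)).comp (tendsto_add_atTop_nat 2)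
    rw [Finset.sum_const_zero] at this
    exact this.eventually_lt_const one_pos
  obtain ⟨m, hm⟩ := hm.exists
  have hcover : ∀ z : ℂ, z ≠ 0 → ∃ j, 0 < (conj (a j) * z).re := by
    intro z hz
    obtain ⟨e0, e1, e2, e3⟩ := hbox' z
    rcases lt_trichotomy z.re 0 with h | h | h
    · exact ⟨Sum.inr 1, by rw [show a (Sum.inr 1) = box 1 from rfl, e1, Left.neg_pos_iff]; exact div_neg_of_neg_of_pos h hRpos⟩
    · rcases lt_trichotomy z.im 0 with h' | h' | h'
      · exact ⟨Sum.inr 3, by rw [show a (Sum.inr 3) = box 3 from rfl, e3, Left.neg_pos_iff]; exact div_neg_of_neg_of_pos h' hRpos⟩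
      · exact absurd (Complex.ext h h') hz
      · exact ⟨Sum.inr 2, by rw [show a (Sum.inr 2) = box 2 from rfl, e2]; positivity⟩
    · exact ⟨Sum.inr 0, by rw [show a (Sum.inr 0) = box 0 from rfl, e0]; positivity⟩
  let Q : Poly (T ⊕ Fin 4) := ⟨a, m, hcover⟩
  refine ⟨Q.loop, fun k hk => ?_, fun z hz => ?_⟩
  · show ∑ j, rampPow (m + 2) ((conj (a j) * k).re) < 1
    refine lt_of_le_of_lt (Finset.sum_le_sum fun j _ => ?_) hm
    exact pow_le_pow_left₀ (le_max_right _ _) (max_le (hq2 j k hk) (hq0 j)) _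
  · have hle : Q.gauge z ≤ 1 := Q.closure_sub hz
    have hj : ∀ j, (conj (a j) * z).re ≤ 1 := by
      intro j
      by_contra h
      push Not at h
      have h1 : (1:ℝ) < rampPow (m + 2) ((conj (a j) * z).re) :=
        one_lt_pow₀ (lt_max_of_lt_left h) (by omega)
      have h2 : rampPow (m + 2) ((conj (a j) * z).re) ≤ Q.gauge z :=
        Finset.single_le_sum (f := fun j => rampPow (m + 2) ((conj (a j) * z).re))
          (fun i _ => pow_nonneg (le_max_right _ _) _) (Finset.mem_univ j)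
      linarith
    obtain ⟨e0, e1, e2, e3⟩ := hbox' z
    have b0 : z.re / R ≤ 1 := e0 ▸ hj (Sum.inr 0)
    have b1 : -(z.re / R) ≤ 1 := e1 ▸ hj (Sum.inr 1)
    have b2 : z.im / R ≤ 1 := e2 ▸ hj (Sum.inr 2)
    have b3 : -(z.im / R) ≤ 1 := e3 ▸ hj (Sum.inr 3)
    have hnorm : ‖z‖ ≤ 2 * R := by
      refine (Complex.norm_le_abs_re_add_abs_im z).trans ?_
      rw [div_le_one hRpos] at b0 b2
      rw [← neg_div, div_le_one hRpos] at b1 b3
      have := abs_le.2 ⟨by linarith, b0⟩
      have : |z.re| ≤ R := abs_le.2 ⟨by linarith, b0⟩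
      have : |z.im| ≤ R := abs_le.2 ⟨by linarith, b2⟩
      linarith
    have hzB : Metric.infDist z K < δ := by
      by_contra h
      push Not at h
      have hzB : z ∈ B := ⟨h, by simpa [Metric.mem_closedBall, dist_eq_norm] using hnorm⟩
      obtain ⟨w, hwT, hw⟩ := mem_iUnion₂.1 (hT hzB)
      have := hj (Sum.inl ⟨w, hwT⟩)
      exact absurd this (not_le.2 hw)
    obtain ⟨k, hk, hd⟩ := (Metric.infDist_lt_iff ⟨0, h0⟩).1 hzB
    exact ⟨k, hk, by rwa [← dist_eq_norm]⟩

end Vale.Agent.P123
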