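import Mathlib

/-!
# Smooth convex loops and the Cauchy transform of conjugate boundary values
-/

open Complex MeasureTheory Set Filter Topology
open scoped Real ComplexConjugate Interval

noncomputable section

namespace Vale.Agent.P123

lemma intervalIntegral_conj {a b : ℝ} {f : ℝ → ℂ} :
    ∫ t in a..b, conj (f t) = conj (∫ t in a..b, f t) := by
  simp only [intervalIntegral, integral_conj, map_sub]

/-- A bounded open convex set around `0` with a `C¹` parametrisation of its boundary. -/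
structure Loop where
  γ : ℝ → ℂ
  γ' : ℝ → ℂ
  Ω : Set ℂ
  isOpen : IsOpen Ω
  convex : Convex ℝ Ω
  bounded : Bornology.IsBounded Ω
  zero_mem : (0 : ℂ) ∈ Ω
  hasDeriv : ∀ t, HasDerivAt γ (γ' t) t
  cont' : Continuous γ'
  periodic : Function.Periodic γ (2 * π)
  mem_closure : ∀ t, γ t ∈ closure Ω
  notMem : ∀ t, γ t ∉ Ω
  frontier_sub : frontier Ω ⊆ range γ
  inj : ∀ a t, t ∈ Ioo a (a + 2 * π) → γ t ≠ γ a
  deriv_ne : ∀ t, γ' t ≠ 0
  tangent : ∀ t, ∀ w ∈ closure Ω, 0 ≤ (conj (-I * γ' t) * (γ t - w)).re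
  winding : ∫ t in (0:ℝ)..2 * π, γ' t / γ t = 2 * π * I

namespace Loop

variable (L : Loop)

lemma continuous_γ : Continuous L.γ :=
  continuous_iff_continuousAt.2 fun t => (L.hasDeriv t).continuousAt

lemma periodic' : Function.Periodic L.γ' (2 * π) := by
  intro t
  have h1 : HasDerivAt (fun s => L.γ (s + 2 * π)) (L.γ' (t + 2 * π)) t :=
    (L.hasDeriv (t + 2 * π)).comp_add_const t (2 * π)
  have h2 : (fun s => L.γ (s + 2 * π)) = L.γ := funext L.periodic
  rw [h2] at h1
  exact h1.unique (L.hasDeriv t)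

lemma ne_of_mem {z : ℂ} (hz : z ∈ L.Ω) (t : ℝ) : L.γ t - z ≠ 0 :=
  sub_ne_zero.2 fun h => L.notMem t (h ▸ hz)

lemma isCompact_closure : IsCompact (closure L.Ω) := L.bounded.isCompact_closure

lemma exists_eq_of_not_mem {z : ℂ} (hz : z ∈ closure L.Ω) (hz' : z ∉ L.Ω) : ∃ t, L.γ t = z :=
  L.frontier_sub ⟨hz, by rwa [L.isOpen.interior_eq]⟩

/-- the kernel `ν(t) / (γ t - z)` -/
def kern (t : ℝ) (z : ℂ) : ℂ := -I * L.γ' t / (L.γ t - z)

lemma kern_re_nonneg (t : ℝ) {z : ℂ} (hz : z ∈ closure L.Ω) : 0 ≤ (L.kern t z).re := by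
  have h := L.tangent t z hz
  have e : (L.kern t z).re =
      (conj (-I * L.γ' t) * (L.γ t - z)).re / Complex.normSq (L.γ t - z) := by
    simp [kern, Complex.div_re, Complex.mul_re, Complex.mul_im]
    ring
  rw [e]
  exact div_nonneg h (Complex.normSq_nonneg _)

lemma continuous_kern {z : ℂ} (hz : z ∈ L.Ω) : Continuous fun t => L.kern t z := by
  unfold kern
  exact ((continuous_const.mul L.cont').div (L.continuous_γ.sub continuous_const) (L.ne_of_mem hz))

lemma measurable_kern (z : ℂ) : Measurable fun t => L.kern t z := by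
  unfold kern
  exact ((continuous_const.mul L.cont').measurable).div
    ((L.continuous_γ.sub continuous_const).measurable)

lemma hasDerivAt_integral_inv (φ : ℝ → ℂ) (hφ : Continuous φ) {z : ℂ} (hz : z ∈ L.Ω) :
    HasDerivAt (fun z => ∫ t in (0:ℝ)..2 * π, φ t / (L.γ t - z))
      (∫ t in (0:ℝ)..2 * π, φ t / (L.γ t - z) ^ 2) z := by
  obtain ⟨δ, hδ, hball⟩ := Metric.isOpen_iff.1 L.isOpen z hz
  have hsep : ∀ t, ∀ x ∈ Metric.ball z (δ / 2), δ / 2 ≤ ‖L.γ t - x‖ := by
    intro t x hx
    by_contra hc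
    apply L.notMem t
    apply hball
    rw [Metric.mem_ball, dist_eq_norm] at hx ⊢
    calc ‖L.γ t - z‖ ≤ ‖L.γ t - x‖ + ‖x - z‖ := norm_sub_le_norm_sub_add_norm_sub _ _ _
      _ < δ := by linarith [not_le.1 hc]
  have hnm : ∀ x ∈ Metric.ball z (δ / 2), ∀ t, L.γ t - x ≠ 0 := fun x hx t h => by
    have := hsep t x hx
    rw [h, norm_zero] at this; linarith
  have hx0 := Metric.mem_ball_self (x := z) (half_pos hδ)
  have hcont : ∀ x ∈ Metric.ball z (δ / 2), Continuous fun t => φ t / (L.γ t - x) := fun x hx =>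
    hφ.div (L.continuous_γ.sub continuous_const) (hnm x hx)
  refine (intervalIntegral.hasDerivAt_integral_of_dominated_loc_of_deriv_le
    (F := fun x t => φ t / (L.γ t - x)) (F' := fun x t => φ t / (L.γ t - x) ^ 2)
    (bound := fun t => ‖φ t‖ / (δ / 2) ^ 2) (Metric.ball_mem_nhds z (half_pos hδ)) ?_ ?_ ?_ ?_ ?_ ?_).2
  · filter_upwards [Metric.ball_mem_nhds z (half_pos hδ)] with x hx
    exact (hcont x hx).aestronglyMeasurable
  · exact (hcont z hx0).intervalIntegrable _ _
  · exact (hφ.div ((L.continuous_γ.sub continuous_const).pow 2)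
      fun t => pow_ne_zero 2 (hnm z hx0 t)).aestronglyMeasurable
  · refine Eventually.of_forall fun t _ x hx => ?_
    rw [norm_div, norm_pow]
    exact div_le_div_of_nonneg_left (norm_nonneg _) (by positivity)
      (pow_le_pow_left₀ (by positivity) (hsep t x hx) 2)
  · exact (hφ.norm.div_const _).intervalIntegrable _ _
  · refine Eventually.of_forall fun t _ x hx => ?_
    have := ((hasDerivAt_const x (φ t)).div ((hasDerivAt_id x).const_sub (L.γ t)) (hnm x hx t))
    simpa [Pi.div_def] using this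

lemma integral_kern {z : ℂ} (hz : z ∈ L.Ω) : ∫ t in (0:ℝ)..2 * π, L.kern t z = 2 * π := by
  set J : ℂ → ℂ := fun z => ∫ t in (0:ℝ)..2 * π, L.γ' t / (L.γ t - z) with hJ
  have hJ0 : ∀ x ∈ L.Ω, HasDerivAt J 0 x := by
    intro x hx
    have h := L.hasDerivAt_integral_inv L.γ' L.cont' hx
    have e : ∫ t in (0:ℝ)..2 * π, L.γ' t / (L.γ t - x) ^ 2 = 0 := by
      have := intervalIntegral.integral_eq_sub_of_hasDerivAt
        (f := fun t => -((L.γ t - x)⁻¹)) (f' := fun t => L.γ' t / (L.γ t - x) ^ 2)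
        (a := 0) (b := 2 * π)
        (fun t _ => by
          have := (((L.hasDeriv t).sub_const x).inv (L.ne_of_mem hx t)).neg
          simpa [neg_div, Pi.inv_def, Pi.neg_def] using this)
        ((L.cont'.div ((L.continuous_γ.sub continuous_const).pow 2)
          (fun t => pow_ne_zero 2 (L.ne_of_mem hx t))).intervalIntegrable _ _)
      rw [this]
      have := L.periodic 0
      simp only [zero_add] at this
      simp [this]
    rwa [e] at h
  have hc : J z = J 0 :=
    L.convex.is_const_of_fderivWithin_eq_zero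
      (fun x hx => (hJ0 x hx).differentiableAt.differentiableWithinAt)
      (fun x hx => by
        rw [fderivWithin_of_isOpen L.isOpen hx]
        have := (hJ0 x hx).hasFDerivAt.fderiv
        simpa using this) hz L.zero_mem
  have h0 : J 0 = 2 * π * I := by simpa [hJ] using L.winding
  calc ∫ t in (0:ℝ)..2 * π, L.kern t z
      = ∫ t in (0:ℝ)..2 * π, (-I) * (L.γ' t / (L.γ t - z)) := by
        congr 1; funext t; simp only [kern, mul_div_assoc]
    _ = (-I) * J z := intervalIntegral.integral_const_mul _ _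
    _ = 2 * π := by rw [hc, h0]; ring_nf; simp

lemma cauchy {U : Set ℂ} (hU : IsOpen U) (hUc : Convex ℝ U) (hsub : closure L.Ω ⊆ U)
    {f : ℂ → ℂ} (hf : DifferentiableOn ℂ f U) {z : ℂ} (hz : z ∈ L.Ω) :
    ∫ t in (0:ℝ)..2 * π, f (L.γ t) * L.kern t z = 2 * π * f z := by
  have hzU : z ∈ U := hsub (subset_closure hz)
  have hd : DifferentiableOn ℂ (dslope f z) U :=
    (Complex.differentiableOn_dslope (hU.mem_nhds hzU)).2 hf
  obtain ⟨G, hG⟩ := hUc.exists_forall_hasDerivWithinAt hd
  have hG' : ∀ w ∈ U, HasDerivAt G (dslope f z w) w := fun w hw =>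
    (hG w hw).hasDerivAt (hU.mem_nhds hw)
  have hγU : ∀ t, L.γ t ∈ U := fun t => hsub (L.mem_closure t)
  have hq : Continuous fun t => dslope f z (L.γ t) :=
    hd.continuousOn.comp_continuous L.continuous_γ hγU
  have hzero : ∫ t in (0:ℝ)..2 * π, dslope f z (L.γ t) * L.γ' t = 0 := by
    rw [intervalIntegral.integral_eq_sub_of_hasDerivAt (f := fun t => G (L.γ t))
      (fun t _ => (hG' _ (hγU t)).comp t (L.hasDeriv t))
      ((hq.mul L.cont').intervalIntegrable _ _)]
    have := L.periodic 0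
    simp only [zero_add] at this
    simp [this]
  have hfc : Continuous fun t => f (L.γ t) :=
    hf.continuousOn.comp_continuous L.continuous_γ hγU
  have e : ∀ t, f (L.γ t) * L.kern t z
      = f z * L.kern t z + (-I) * (dslope f z (L.γ t) * L.γ' t) := by
    intro t
    have hne := L.ne_of_mem hz t
    rw [dslope_of_ne _ (sub_ne_zero.1 hne), slope_def_field, kern]
    field_simp
    ring
  rw [intervalIntegral.integral_congr (g := fun t => f z * L.kern t z
      + (-I) * (dslope f z (L.γ t) * L.γ' t)) (fun t _ => e t),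
    intervalIntegral.integral_add (f := fun t => f z * L.kern t z)
      (g := fun t => -I * (dslope f z (L.γ t) * L.γ' t))
      ((continuous_const.mul (L.continuous_kern hz)).intervalIntegrable _ _)
      ((continuous_const.mul (hq.mul L.cont')).intervalIntegrable _ _),
    intervalIntegral.integral_const_mul, intervalIntegral.integral_const_mul, hzero,
    L.integral_kern hz]
  ring

/-- Cauchy transform of the conjugate boundary values -/
def tr (f : ℂ → ℂ) (z : ℂ) : ℂ :=
  (2 * π : ℂ)⁻¹ * ∫ t in (0:ℝ)..2 * π, conj (f (L.γ t)) * L.kern t z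

/-- Continuous extension of `tr f` to the closure -/
def ext (f : ℂ → ℂ) (z : ℂ) : ℂ :=
  conj (f z + (2 * π : ℂ)⁻¹ *
    ∫ t in (0:ℝ)..2 * π, (f (L.γ t) - f z) * ((2 * (L.kern t z).re : ℝ) : ℂ))

lemma differentiableOn_tr {f : ℂ → ℂ} (hf : ContinuousOn f (closure L.Ω)) :
    DifferentiableOn ℂ (L.tr f) L.Ω := by
  intro z hz
  have hc : Continuous fun t => conj (f (L.γ t)) * (-I * L.γ' t) :=
    (continuous_conj.comp (hf.comp_continuous L.continuous_γ L.mem_closure)).mul
      (continuous_const.mul L.cont')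
  have h := (L.hasDerivAt_integral_inv _ hc hz).differentiableAt.const_mul ((2 * π : ℂ)⁻¹)
  refine (h.congr_of_eventuallyEq (Eventually.of_forall fun w => ?_)).differentiableWithinAt
  simp only [tr, kern, mul_div_assoc]

lemma integral_conj_kern {f : ℂ → ℂ} {z : ℂ} :
    ∫ t in (0:ℝ)..2 * π, f (L.γ t) * conj (L.kern t z) = 2 * π * conj (L.tr f z) := by
  have : ∫ t in (0:ℝ)..2 * π, f (L.γ t) * conj (L.kern t z)
      = conj (∫ t in (0:ℝ)..2 * π, conj (f (L.γ t)) * L.kern t z) := by
    rw [← intervalIntegral_conj]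
    simp
  have hne : (2 * π : ℂ) ≠ 0 := by simp [Real.pi_ne_zero]
  have hc : conj ((2 * π : ℂ)⁻¹) = (2 * π : ℂ)⁻¹ := by
    rw [map_inv₀, map_mul, Complex.conj_ofReal, map_ofNat]
  rw [this, tr, map_mul, hc, ← mul_assoc, mul_inv_cancel₀ hne, one_mul]

lemma ext_eq_tr {U : Set ℂ} (hU : IsOpen U) (hUc : Convex ℝ U) (hsub : closure L.Ω ⊆ U)
    {f : ℂ → ℂ} (hf : DifferentiableOn ℂ f U) {z : ℂ} (hz : z ∈ L.Ω) :
    L.ext f z = L.tr f z := by
  have hfc : Continuous fun t => f (L.γ t) :=
    hf.continuousOn.comp_continuous L.continuous_γ fun t => hsub (L.mem_closure t)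
  have hk := L.continuous_kern hz
  have hkc : Continuous fun t => conj (L.kern t z) := continuous_conj.comp hk
  have e : ∀ t, (f (L.γ t) - f z) * ((2 * (L.kern t z).re : ℝ) : ℂ)
      = f (L.γ t) * L.kern t z + f (L.γ t) * conj (L.kern t z)
        - f z * (L.kern t z + conj (L.kern t z)) := by
    intro t; rw [Complex.add_conj]; push_cast
    rw [show (2 : ℂ) * ((L.kern t z).re : ℂ) = L.kern t z + conj (L.kern t z) by
      rw [Complex.add_conj]; push_cast; ring]
    ring
  have hconj : ∫ t in (0:ℝ)..2 * π, conj (L.kern t z) = 2 * π := by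
    rw [intervalIntegral_conj, L.integral_kern hz]; simp [Complex.conj_ofReal, map_ofNat]
  rw [ext, intervalIntegral.integral_congr (g := fun t => f (L.γ t) * L.kern t z
        + f (L.γ t) * conj (L.kern t z) - f z * (L.kern t z + conj (L.kern t z))) (fun t _ => e t),
    intervalIntegral.integral_sub
      (f := fun t => f (L.γ t) * L.kern t z + f (L.γ t) * conj (L.kern t z))
      (g := fun t => f z * (L.kern t z + conj (L.kern t z)))
      (((hfc.mul hk).add (hfc.mul hkc)).intervalIntegrable _ _)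
      ((continuous_const.mul (hk.add hkc)).intervalIntegrable _ _),
    intervalIntegral.integral_add (f := fun t => f (L.γ t) * L.kern t z)
      (g := fun t => f (L.γ t) * conj (L.kern t z)) ((hfc.mul hk).intervalIntegrable _ _)
      ((hfc.mul hkc).intervalIntegrable _ _),
    intervalIntegral.integral_const_mul,
    intervalIntegral.integral_add (f := fun t => L.kern t z) (g := fun t => conj (L.kern t z))
      (hk.intervalIntegrable _ _) (hkc.intervalIntegrable _ _),
    L.cauchy hU hUc hsub hf hz, L.integral_conj_kern, L.integral_kern hz, hconj]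
  have hne : (π : ℂ) ≠ 0 := by simp [Real.pi_ne_zero]
  rw [show f z + (2 * π : ℂ)⁻¹ * (2 * π * f z + 2 * π * conj (L.tr f z) - f z * (2 * π + 2 * π))
      = conj (L.tr f z) by field_simp; ring]
  simp

lemma exists_lipschitz {U : Set ℂ} (hU : IsOpen U) (hsub : closure L.Ω ⊆ U)
    {f : ℂ → ℂ} (hf : DifferentiableOn ℂ f U) :
    ∃ C : ℝ, 0 ≤ C ∧ ∀ z ∈ closure L.Ω, ∀ w ∈ closure L.Ω, ‖f w - f z‖ ≤ C * ‖w - z‖ := by
  obtain ⟨C, hC⟩ := L.isCompact_closure.exists_bound_of_continuousOn
    ((hf.deriv hU).continuousOn.mono hsub)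
  refine ⟨max C 0, le_max_right _ _, fun z hz w hw => ?_⟩
  exact (L.convex.closure).norm_image_sub_le_of_norm_deriv_le
    (fun x hx => hf.differentiableAt (hU.mem_nhds (hsub hx)))
    (fun x hx => (hC x hx).trans (le_max_left _ _)) hz hw

/-- the integrand in the formula for `ext` -/
def integrand (f : ℂ → ℂ) (z : ℂ) (t : ℝ) : ℂ :=
  (f (L.γ t) - f z) * ((2 * (L.kern t z).re : ℝ) : ℂ)

lemma measurable_integrand {f : ℂ → ℂ} (hf : ContinuousOn f (closure L.Ω)) (z : ℂ) :
    Measurable (L.integrand f z) := by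
  unfold integrand
  exact ((hf.comp_continuous L.continuous_γ L.mem_closure).measurable.sub_const _).mul
    (Complex.measurable_ofReal.comp ((Complex.measurable_re.comp (L.measurable_kern z)).const_mul 2))

lemma norm_integrand_le {f : ℂ → ℂ} {C : ℝ} (hC : 0 ≤ C)
    (hlip : ∀ z ∈ closure L.Ω, ∀ w ∈ closure L.Ω, ‖f w - f z‖ ≤ C * ‖w - z‖)
    {z : ℂ} (hz : z ∈ closure L.Ω) (t : ℝ) : ‖L.integrand f z t‖ ≤ 2 * C * ‖L.γ' t‖ := by
  have h1 := hlip z hz (L.γ t) (L.mem_closure t)
  have h2 : |(L.kern t z).re| ≤ ‖L.γ' t‖ / ‖L.γ t - z‖ := by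
    refine (Complex.abs_re_le_norm _).trans (le_of_eq ?_)
    simp [kern]
  rw [integrand, norm_mul, Complex.norm_real, Real.norm_eq_abs, abs_mul, abs_two]
  rcases eq_or_ne (L.γ t - z) 0 with h | h
  · rw [sub_eq_zero] at h
    rw [h]; simp; positivity
  · have hp : 0 < ‖L.γ t - z‖ := norm_pos_iff.2 h
    calc ‖f (L.γ t) - f z‖ * (2 * |(L.kern t z).re|)
        ≤ (C * ‖L.γ t - z‖) * (2 * (‖L.γ' t‖ / ‖L.γ t - z‖)) :=
          mul_le_mul h1 (by linarith) (by positivity) (by positivity)
      _ = 2 * C * ‖L.γ' t‖ := by field_simp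

lemma continuousOn_ext {U : Set ℂ} (hU : IsOpen U) (hsub : closure L.Ω ⊆ U)
    {f : ℂ → ℂ} (hf : DifferentiableOn ℂ f U) : ContinuousOn (L.ext f) (closure L.Ω) := by
  obtain ⟨C, hC, hlip⟩ := L.exists_lipschitz hU hsub hf
  have hfc : ContinuousOn f (closure L.Ω) := hf.continuousOn.mono hsub
  intro z₀ hz₀
  have key : ContinuousWithinAt (fun z => ∫ t in (0:ℝ)..2 * π, L.integrand f z t)
      (closure L.Ω) z₀ := by
    refine intervalIntegral.continuousWithinAt_of_dominated_interval
      (bound := fun t => 2 * C * ‖L.γ' t‖) ?_ ?_ ?_ ?_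
    · exact Eventually.of_forall fun z => (L.measurable_integrand hfc z).aestronglyMeasurable
    · filter_upwards [self_mem_nhdsWithin] with z hz
      exact Eventually.of_forall fun t _ => L.norm_integrand_le hC hlip hz t
    · exact (L.cont'.norm.const_smul (2 * C)).intervalIntegrable _ _
    · have hnull : ∀ᵐ t, t ∈ Ι (0:ℝ) (2 * π) → L.γ t ≠ z₀ := by
        by_cases hex : ∃ t₀, t₀ ∈ Ι (0:ℝ) (2 * π) ∧ L.γ t₀ = z₀
        · obtain ⟨t₀, ht₀, e⟩ := hex
          filter_upwards [compl_mem_ae_iff.2 (show volume ({t₀} : Set ℝ) = 0 by simp)] with t ht htI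
          intro h
          rw [uIoc_of_le (by positivity)] at ht₀ htI
          have hne : t ≠ t₀ := ht
          rcases lt_or_gt_of_ne hne with hlt | hlt
          · exact L.inj t t₀ ⟨hlt, by linarith [htI.1, ht₀.2]⟩ (e.trans h.symm)
          · exact L.inj t₀ t ⟨hlt, by linarith [ht₀.1, htI.2]⟩ (h.trans e.symm)
        · exact Eventually.of_forall fun t ht h => hex ⟨t, ht, h⟩
      filter_upwards [hnull] with t ht htI
      have hne : L.γ t - z₀ ≠ 0 := sub_ne_zero.2 (ht htI)
      unfold integrand kern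
      refine (continuousWithinAt_const.sub (hfc z₀ hz₀)).mul ?_
      refine (Complex.continuous_ofReal.continuousAt.comp_continuousWithinAt ?_)
      refine continuousWithinAt_const.mul ?_
      refine Complex.continuous_re.continuousAt.comp_continuousWithinAt ?_
      exact continuousWithinAt_const.div (continuousWithinAt_const.sub continuousWithinAt_id) hne
  exact Complex.continuous_conj.continuousAt.comp_continuousWithinAt
    ((hfc z₀ hz₀).add (continuousWithinAt_const.mul key))

lemma integral_re_kern_boundary (t₀ : ℝ) :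
    IntervalIntegrable (fun t => (L.kern t (L.γ t₀)).re) volume t₀ (t₀ + 2 * π) ∧
      ∫ t in t₀..t₀ + 2 * π, (L.kern t (L.γ t₀)).re = π := by
  set a := t₀
  set b := t₀ + 2 * π with hb
  have hab : a < b := by rw [hb]; linarith [Real.pi_pos]
  set ν : ℂ := -I * L.γ' a with hν
  have hν0 : ν ≠ 0 := mul_ne_zero (neg_ne_zero.2 I_ne_zero) (L.deriv_ne a)
  set r : ℝ → ℂ := fun t => (L.γ a - L.γ t) / ν with hr
  have hre : ∀ t, 0 ≤ (r t).re := by
    intro t
    have h := L.tangent a (L.γ t) (L.mem_closure t)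
    have e : (r t).re = (conj ν * (L.γ a - L.γ t)).re / Complex.normSq ν := by
      simp only [hr, Complex.div_re, Complex.mul_re, Complex.conj_re, Complex.conj_im]
      ring
    rw [e]; exact div_nonneg h (Complex.normSq_nonneg _)
  have hrne : ∀ t ∈ Ioo a b, r t ≠ 0 := fun t ht =>
    div_ne_zero (sub_ne_zero.2 (L.inj a t ht).symm) hν0
  have hslit : ∀ t ∈ Ioo a b, r t ∈ slitPlane := by
    intro t ht
    rw [Complex.mem_slitPlane_iff]
    rcases (hre t).lt_or_eq with h | h
    · exact Or.inl h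
    · exact Or.inr fun h' => hrne t ht (Complex.ext h.symm h')
  have hd : ∀ t ∈ Ioo a b, HasDerivAt (fun t => Complex.arg (r t)) (L.kern t (L.γ a)).re t := by
    intro t ht
    have h1 : HasDerivAt r (-L.γ' t / ν) t := ((L.hasDeriv t).const_sub (L.γ a)).div_const ν
    have h2 := Complex.imCLM.hasFDerivAt.comp_hasDerivAt t (h1.clog_real (hslit t ht))
    have h3 : (Complex.imCLM ∘ fun t => Complex.log (r t)) = fun t => Complex.arg (r t) := by
      funext t; simp [Complex.log_im]
    rw [h3] at h2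
    refine h2.congr_deriv ?_
    have hne : L.γ t - L.γ a ≠ 0 := sub_ne_zero.2 (L.inj a t ht)
    have hne' : L.γ a - L.γ t ≠ 0 := sub_ne_zero.2 (L.inj a t ht).symm
    have e : -L.γ' t / ν / r t = L.γ' t / (L.γ t - L.γ a) := by
      simp only [hr]; field_simp; ring
    rw [e, Complex.imCLM_apply, kern, neg_mul, neg_div, mul_div_assoc]
    simp
  have hslope : Tendsto (fun t => ((t - a)⁻¹ : ℝ) • (L.γ t - L.γ a)) (𝓝[≠] a) (𝓝 (L.γ' a)) :=
    hasDerivAt_iff_tendsto_slope.1 (L.hasDeriv a)
  have hbb : L.γ b = L.γ a := L.periodic a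
  have hslope' : Tendsto (fun t => ((t - b)⁻¹ : ℝ) • (L.γ t - L.γ b)) (𝓝[≠] b) (𝓝 (L.γ' a)) := by
    have := hasDerivAt_iff_tendsto_slope.1 (L.hasDeriv b)
    rwa [show L.γ' b = L.γ' a from L.periodic' a] at this
  have hI : L.γ' a / ν = I := by
    rw [hν]; field_simp [L.deriv_ne a]; simp
  have hfa : Tendsto (fun t => Complex.arg (r t)) (𝓝[>] a) (𝓝 (-(π / 2))) := by
    have h1 : Tendsto (fun t => -(((t - a)⁻¹ : ℝ) • (L.γ t - L.γ a)) / ν) (𝓝[>] a) (𝓝 (-I)) := by
      have := ((hslope.mono_left (nhdsGT_le_nhdsNE a)).neg).div_const ν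
      rwa [neg_div, hI] at this
    have h2 := ((Complex.continuousAt_arg (x := -I) (by simp [Complex.mem_slitPlane_iff])).tendsto).comp h1
    rw [Complex.arg_neg_I] at h2
    refine h2.congr' ?_
    filter_upwards [self_mem_nhdsWithin] with t ht
    have hpos : 0 < (t - a)⁻¹ := inv_pos.2 (sub_pos.2 ht)
    simp only [Function.comp, hr]
    rw [← Complex.arg_real_mul ((L.γ a - L.γ t) / ν) hpos, Complex.real_smul]
    congr 1; ring
  have hfb : Tendsto (fun t => Complex.arg (r t)) (𝓝[<] b) (𝓝 (π / 2)) := by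
    have h1 : Tendsto (fun t => (((t - b)⁻¹ : ℝ) • (L.γ t - L.γ b)) / ν) (𝓝[<] b) (𝓝 I) := by
      have := (hslope'.mono_left (nhdsLT_le_nhdsNE b)).div_const ν
      rwa [hI] at this
    have h2 := ((Complex.continuousAt_arg (x := I) (by simp [Complex.mem_slitPlane_iff])).tendsto).comp h1
    rw [Complex.arg_I] at h2
    refine h2.congr' ?_
    filter_upwards [self_mem_nhdsWithin] with t ht
    have hpos : 0 < -(t - b)⁻¹ := neg_pos.2 (inv_lt_zero.2 (sub_neg.2 ht))
    simp only [Function.comp, hr]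
    rw [← Complex.arg_real_mul ((L.γ a - L.γ t) / ν) hpos, Complex.real_smul, hbb]
    congr 1; push_cast; ring
  have hint : IntervalIntegrable (fun t => (L.kern t (L.γ a)).re) volume a b := by
    rw [intervalIntegrable_iff_integrableOn_Ioc_of_le hab.le]
    set F : ℝ → ℝ :=
      Function.update (Function.update (fun t => Complex.arg (r t)) a (-(π / 2))) b (π / 2) with hF
    refine intervalIntegral.integrableOn_deriv_of_nonneg (g := F) ?_ ?_
      (fun t _ => L.kern_re_nonneg t (L.mem_closure a))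
    · rw [hF, continuousOn_update_iff, continuousOn_update_iff, Icc_sdiff_right, Ico_sdiff_left]
      refine ⟨⟨fun t ht => (hd t ht).continuousAt.continuousWithinAt, fun _ => ?_⟩, fun _ => ?_⟩
      · exact hfa.mono_left (nhdsWithin_mono a Ioo_subset_Ioi_self)
      · refine Tendsto.congr' ?_ (hfb.mono_left (nhdsWithin_mono b Ico_subset_Iio_self))
        filter_upwards [nhdsWithin_le_nhds (Ioi_mem_nhds hab)] with t ht
        rw [Function.update_of_ne (ne_of_gt (show a < t from ht))]
    · intro t ht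
      refine (hd t ht).congr_of_eventuallyEq ?_
      filter_upwards [Ioo_mem_nhds ht.1 ht.2] with s hs
      rw [hF, Function.update_of_ne hs.2.ne, Function.update_of_ne hs.1.ne']
  refine ⟨hint, ?_⟩
  rw [intervalIntegral.integral_eq_sub_of_hasDerivAt_of_tendsto hab hd hint hfa hfb]
  ring

lemma norm_ext_le_boundary {f : ℂ → ℂ} (hf : ContinuousOn f (closure L.Ω)) {M : ℝ}
    (hM : ∀ z ∈ closure L.Ω, ‖f z‖ ≤ M) (t₀ : ℝ) : ‖L.ext f (L.γ t₀)‖ ≤ M := by
  obtain ⟨hint, hval⟩ := L.integral_re_kern_boundary t₀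
  set k : ℝ → ℝ := fun t => (L.kern t (L.γ t₀)).re with hk
  have hper : Function.Periodic (L.integrand f (L.γ t₀)) (2 * π) := by
    intro t; simp only [integrand, kern, L.periodic t, L.periodic' t]
  have hshift : ∫ t in (0:ℝ)..2 * π, L.integrand f (L.γ t₀) t
      = ∫ t in t₀..t₀ + 2 * π, L.integrand f (L.γ t₀) t := by
    simpa using hper.intervalIntegral_add_eq 0 t₀
  have hfc : Continuous fun t => f (L.γ t) := hf.comp_continuous L.continuous_γ L.mem_closure
  have hintC : IntervalIntegrable (fun t => ((k t : ℝ) : ℂ)) volume t₀ (t₀ + 2 * π) :=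
    ⟨hint.1.ofReal, hint.2.ofReal⟩
  have h1 : IntervalIntegrable (fun t => f (L.γ t) * (k t : ℂ)) volume t₀ (t₀ + 2 * π) :=
    hintC.continuousOn_mul hfc.continuousOn
  have e : ∀ t, L.integrand f (L.γ t₀) t
      = 2 * (f (L.γ t) * (k t : ℂ)) - (2 * f (L.γ t₀)) * (k t : ℂ) := by
    intro t; simp only [integrand, hk]; push_cast; ring
  have hformula : L.ext f (L.γ t₀)
      = conj ((π : ℂ)⁻¹ * ∫ t in t₀..t₀ + 2 * π, f (L.γ t) * (k t : ℂ)) := by
    rw [ext, show (fun t => (f (L.γ t) - f (L.γ t₀)) * ((2 * (L.kern t (L.γ t₀)).re : ℝ) : ℂ))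
        = L.integrand f (L.γ t₀) from rfl, hshift,
      intervalIntegral.integral_congr (g := fun t => 2 * (f (L.γ t) * (k t : ℂ))
        - (2 * f (L.γ t₀)) * (k t : ℂ)) (fun t _ => e t),
      intervalIntegral.integral_sub (f := fun t => 2 * (f (L.γ t) * (k t : ℂ)))
        (g := fun t => (2 * f (L.γ t₀)) * (k t : ℂ)) (h1.const_mul 2) (hintC.const_mul _),
      intervalIntegral.integral_const_mul, intervalIntegral.integral_const_mul,
      intervalIntegral.integral_ofReal, hval]
    congr 1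
    have hne : (π : ℂ) ≠ 0 := by simp [Real.pi_ne_zero]
    field_simp
    ring
  rw [hformula, RCLike.norm_conj, norm_mul, norm_inv, Complex.norm_real,
    Real.norm_of_nonneg Real.pi_pos.le, inv_mul_le_iff₀ Real.pi_pos]
  calc ‖∫ t in t₀..t₀ + 2 * π, f (L.γ t) * (k t : ℂ)‖
      ≤ ∫ t in t₀..t₀ + 2 * π, M * k t := by
        refine intervalIntegral.norm_integral_le_of_norm_le (by linarith [Real.pi_pos]) ?_ (hint.const_mul M)
        refine Eventually.of_forall fun t _ => ?_
        have hk0 : 0 ≤ k t := L.kern_re_nonneg t (L.mem_closure t₀)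
        rw [norm_mul, Complex.norm_real, Real.norm_of_nonneg hk0]
        exact mul_le_mul_of_nonneg_right (hM _ (L.mem_closure t)) hk0
    _ = π * M := by rw [intervalIntegral.integral_const_mul, hval]; ring

/-- The Crouzeix-Palencia lemma: `‖tr f‖ ≤ sup ‖f‖`. -/
lemma norm_tr_le {U : Set ℂ} (hU : IsOpen U) (hUc : Convex ℝ U) (hsub : closure L.Ω ⊆ U)
    {f : ℂ → ℂ} (hf : DifferentiableOn ℂ f U) {M : ℝ} (hM : ∀ z ∈ closure L.Ω, ‖f z‖ ≤ M)
    {z : ℂ} (hz : z ∈ L.Ω) : ‖L.tr f z‖ ≤ M := by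
  have hfc : ContinuousOn f (closure L.Ω) := hf.continuousOn.mono hsub
  have hd : DiffContOnCl ℂ (L.ext f) L.Ω := by
    refine ⟨?_, L.continuousOn_ext hU hsub hf⟩
    exact (L.differentiableOn_tr hfc).congr fun w hw => L.ext_eq_tr hU hUc hsub hf hw
  rw [← L.ext_eq_tr hU hUc hsub hf hz]
  refine Complex.norm_le_of_forall_mem_frontier_norm_le L.bounded hd ?_ (subset_closure hz)
  intro w hw
  obtain ⟨t, rfl⟩ := L.frontier_sub hw
  exact L.norm_ext_le_boundary hfc hM t

end Loop

end Vale.Agent.P123
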