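import Vale.Agent.P123.Bound
import Vale.Agent.P123.Domain

/-!
# From diagonalisable matrices to bounded operators on Hilbert spaces
-/

open Complex MeasureTheory Set Filter Topology Polynomial
open scoped Real ComplexConjugate InnerProductSpace

noncomputable section

namespace Vale.Agent.P123

universe u

variable {E : Type*} [NormedAddCommGroup E] [InnerProductSpace ℂ E]

/-- values `⟪v, T v⟫` on unit vectors -/
def qvals (T : E →L[ℂ] E) : Set ℂ := (fun v => ⟪v, T v⟫_ℂ) '' Metric.sphere 0 1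

lemma mem_qvals (T : E →L[ℂ] E) {v : E} (hv : v ≠ 0) :
    ((‖v‖ : ℂ) ^ 2)⁻¹ * ⟪v, T v⟫_ℂ ∈ qvals T := by
  refine ⟨(‖v‖ : ℂ)⁻¹ • v, by simp [norm_smul, norm_ne_zero_iff.2 hv], ?_⟩
  simp only [map_smul, inner_smul_left, inner_smul_right, map_inv₀, Complex.conj_ofReal]
  ring

/-- Toeplitz-Hausdorff -/
lemma convex_qvals (T : E →L[ℂ] E) : Convex ℝ (qvals T) := by
  rintro _ ⟨x, hx, rfl⟩ _ ⟨y, hy, rfl⟩ p q hp hq hpq
  simp only [mem_sphere_zero_iff_norm] at hx hy
  set a := ⟪x, T x⟫_ℂ with ha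
  set b := ⟪y, T y⟫_ℂ with hb
  show p • a + q • b ∈ qvals T
  rcases eq_or_ne a b with hab | hab
  · rw [← hab, ← add_smul, hpq, one_smul]
    exact ⟨x, by simpa using hx, rfl⟩
  have hba : b - a ≠ 0 := sub_ne_zero.2 hab.symm
  set S : E → E → ℂ := fun u v => (⟪u, T v⟫_ℂ - a * ⟪u, v⟫_ℂ) / (b - a) with hS
  have Sxx : S x x = 0 := by simp [hS, ← ha, inner_self_eq_norm_sq_to_K, hx]
  have Syy : S y y = 1 := by
    simp [hS, ← hb, inner_self_eq_norm_sq_to_K, hy, hba]
  set d := S x y - conj (S y x) with hd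
  obtain ⟨ω, hω, hωd⟩ : ∃ ω : ℂ, ‖ω‖ = 1 ∧ (ω * d).im = 0 := by
    rcases eq_or_ne d 0 with h | h
    · exact ⟨1, by simp, by simp [h]⟩
    · refine ⟨(‖d‖ : ℂ) / d, by simp [h], ?_⟩
      rw [div_mul_cancel₀ _ h, Complex.ofReal_im]
  set v : ℝ → E := fun t => ((1 - t : ℝ) : ℂ) • x + ((t : ℂ) * ω) • y with hv
  have hvne : ∀ t, v t ≠ 0 := by
    intro t h
    rcases eq_or_ne ((t : ℂ) * ω) 0 with h0 | h0
    · have ht : t = 0 := by
        rcases mul_eq_zero.1 h0 with h1 | h1
        · exact_mod_cast h1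
        · simp [h1] at hω
      simp [hv, ht] at h
      simp [h] at hx
    · have hy' : y = (-((1 - t : ℝ) : ℂ) / ((t : ℂ) * ω)) • x := by
        have h2 : ((t : ℂ) * ω) • y = -(((1 - t : ℝ) : ℂ) • x) := eq_neg_of_add_eq_zero_right h
        calc y = ((t : ℂ) * ω)⁻¹ • (((t : ℂ) * ω) • y) := (inv_smul_smul₀ h0 y).symm
          _ = _ := by rw [h2, smul_neg, smul_smul, ← neg_smul, neg_div]; ring_nf
      set c := -((1 - t : ℝ) : ℂ) / ((t : ℂ) * ω)
      have hc : ‖c‖ = 1 := by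
        have := congrArg norm hy'
        rw [norm_smul, hx, hy, mul_one] at this
        exact this.symm
      apply hab
      rw [hb, hy', map_smul, inner_smul_left, inner_smul_right, ← mul_assoc, ← ha, mul_comm (conj c) c,
        Complex.mul_conj', hc]
      simp
  set g : ℝ → ℂ := fun t => ((‖v t‖ : ℂ) ^ 2)⁻¹ * S (v t) (v t) with hg
  have hSv : ∀ t, S (v t) (v t) = (((1 - t) * t : ℝ) : ℂ) * (ω * S x y + conj ω * S y x) + ((t ^ 2 : ℝ) : ℂ) := by
    intro t
    have h1 : S (v t) (v t) = ((1 - t : ℝ) : ℂ) * ((1 - t : ℝ) : ℂ) * S x x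
        + (((1 - t) * t : ℝ) : ℂ) * (ω * S x y + conj ω * S y x)
        + ((t ^ 2 : ℝ) : ℂ) * (ω * conj ω) * S y y := by
      simp only [hS, hv, map_add, map_smul, inner_add_left, inner_add_right, inner_smul_left,
        inner_smul_right, map_mul, Complex.conj_ofReal]
      push_cast; field_simp; ring
    rw [h1, Sxx, Syy, Complex.mul_conj', hω]; simp
  have hreal : ∀ t, (g t).im = 0 := by
    intro t
    have h2 : (ω * S x y + conj ω * S y x).im = 0 := by
      have : (ω * S x y + conj ω * S y x).im = (ω * d).im := by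
        simp [hd, Complex.mul_im, Complex.mul_re]; ring
      rw [this, hωd]
    simp only [hg]
    rw [hSv, show ((‖v t‖ : ℂ) ^ 2)⁻¹ = (((‖v t‖ ^ 2)⁻¹ : ℝ) : ℂ) by push_cast; rfl,
      Complex.im_ofReal_mul]
    simp [h2, ← Complex.ofReal_pow]
  have hvc : Continuous v := by fun_prop
  have hgc : Continuous g := by
    simp only [hg, hS]
    refine ((Complex.continuous_ofReal.comp hvc.norm).pow 2).inv₀ (fun t => ?_) |>.mul ?_
    · simpa using hvne t
    · exact ((hvc.inner (T.continuous.comp hvc)).sub (continuous_const.mul (hvc.inner hvc))).div_const _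
  have g0 : g 0 = 0 := by simp [hg, hv, Sxx]
  have g1 : g 1 = 1 := by
    have : v 1 = ω • y := by simp [hv]
    simp only [hg]
    rw [hSv, this, norm_smul, hω, hy]; simp
  obtain ⟨t, -, ht⟩ := intermediate_value_Icc (show (0:ℝ) ≤ 1 by norm_num)
    (Complex.continuous_re.comp hgc).continuousOn
    (show q ∈ Icc ((Complex.re ∘ g) 0) ((Complex.re ∘ g) 1) by
      simp only [Function.comp, g0, g1, Complex.zero_re, Complex.one_re]; exact ⟨hq, by linarith⟩)
  have hgt : g t = (q : ℂ) := Complex.ext (by simpa using ht) (by simpa using hreal t)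
  have hval : ((‖v t‖ : ℂ) ^ 2)⁻¹ * ⟪v t, T (v t)⟫_ℂ = p • a + q • b := by
    have hn : (‖v t‖ : ℂ) ≠ 0 := by simp [hvne t]
    have h3 : ((‖v t‖ : ℂ) ^ 2)⁻¹ * ((⟪v t, T (v t)⟫_ℂ - a * ⟪v t, v t⟫_ℂ) / (b - a)) = (q : ℂ) := hgt
    rw [inner_self_eq_norm_sq_to_K] at h3
    simp only [RCLike.ofReal_eq_complex_ofReal] at h3
    field_simp at h3
    simp only [Complex.real_smul]
    have hp' : (p : ℂ) = 1 - q := by exact_mod_cast (eq_sub_of_add_eq hpq)
    rw [hp']
    field_simp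
    linear_combination h3
  rw [← hval]
  exact mem_qvals T (hvne t)

lemma isCompact_qvals [FiniteDimensional ℂ E] (T : E →L[ℂ] E) : IsCompact (qvals T) := by
  have : ProperSpace E := FiniteDimensional.proper ℂ E
  exact (isCompact_sphere _ _).image (continuous_id.inner T.continuous)

/-- eigenvectors span the space -/
def SpanEigen (T : E →L[ℂ] E) : Prop :=
  Submodule.span ℂ {v : E | ∃ μ : ℂ, T v = μ • v} = ⊤

lemma exists_spanEigen_near_aux (n : ℕ) : ∀ (E : Type u) [NormedAddCommGroup E]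
    [InnerProductSpace ℂ E] [FiniteDimensional ℂ E], Module.finrank ℂ E = n →
    ∀ (A : E →L[ℂ] E) (ε : ℝ), 0 < ε → ∃ B : E →L[ℂ] E, SpanEigen B ∧ ‖B - A‖ ≤ ε := by
  induction n with
  | zero =>
    intro E _ _ _ hE A ε hε
    have : Subsingleton E := Module.finrank_zero_iff.1 hE
    exact ⟨A, Subsingleton.elim _ _, by simpa using hε.le⟩
  | succ n ih =>
    intro E _ _ _ hE A ε hε
    have : Nontrivial E := Module.finrank_pos_iff.1 (show 0 < Module.finrank ℂ E by omega)
    obtain ⟨μ, hμ⟩ := Module.End.exists_eigenvalue (A : E →ₗ[ℂ] E)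
    obtain ⟨v₀, hv₀⟩ := hμ.exists_hasEigenvector
    obtain ⟨v, hv1, hAv⟩ : ∃ v : E, ‖v‖ = 1 ∧ A v = μ • v := by
      refine ⟨(‖v₀‖ : ℂ)⁻¹ • v₀, by simp [norm_smul, norm_ne_zero_iff.2 hv₀.2], ?_⟩
      have : A v₀ = μ • v₀ := hv₀.apply_eq_smul
      rw [map_smul, this, smul_comm]
    have hvne : v ≠ 0 := fun h => by simp [h] at hv1
    set W : Submodule ℂ E := (ℂ ∙ v)ᗮ with hW
    have hWn : Module.finrank ℂ W = n := by
      have := Submodule.finrank_add_finrank_orthogonal (ℂ ∙ v)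
      rw [finrank_span_singleton hvne, hE, ← hW] at this
      omega
    set π' : E →L[ℂ] W := W.orthogonalProjectionOnto with hπ
    obtain ⟨B₁, hB₁, hB₁n⟩ := ih W hWn (π'.comp (A.comp W.subtypeL)) (ε / 2) (half_pos hε)
    -- a shift avoiding the finitely many eigenvalues of `B₁`
    obtain ⟨s, hs, hsv⟩ : ∃ s : ℝ, |s| ≤ ε / 2 ∧ ¬ Module.End.HasEigenvalue (B₁ : W →ₗ[ℂ] W) (μ + s) := by
      have hfin : {c : ℝ | Module.End.HasEigenvalue (B₁ : W →ₗ[ℂ] W) (μ + c)}.Finite :=
        (Module.End.finite_hasEigenvalue (B₁ : W →ₗ[ℂ] W)).preimage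
          (fun a _ b _ h => Complex.ofReal_injective (add_left_cancel h))
      obtain ⟨s, hs, hs'⟩ := ((Icc_infinite (show -(ε / 2) < ε / 2 by linarith)).sdiff hfin).nonempty
      exact ⟨s, abs_le.2 hs, hs'⟩
    set Pv : E →L[ℂ] E := (innerSL ℂ v).smulRight v with hPv
    have hPvn : ‖Pv‖ ≤ 1 := by
      rw [hPv, ContinuousLinearMap.norm_smulRight_apply, innerSL_apply_norm, hv1]; norm_num
    set B : E →L[ℂ] E := A + (s : ℂ) • Pv
      + W.subtypeL.comp ((B₁ - π'.comp (A.comp W.subtypeL)).comp π') with hB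
    have hπn : ‖π'‖ ≤ 1 := W.orthogonalProjectionOnto_norm_le
    have hin : ‖W.subtypeL‖ ≤ 1 := W.norm_subtypeL_le
    refine ⟨B, ?_, ?_⟩
    swap
    · have e : B - A = (s : ℂ) • Pv
          + W.subtypeL.comp ((B₁ - π'.comp (A.comp W.subtypeL)).comp π') := by rw [hB]; abel
      rw [e]
      refine (norm_add_le _ _).trans ?_
      have h1 : ‖(s : ℂ) • Pv‖ ≤ ε / 2 := by
        rw [norm_smul, Complex.norm_real, Real.norm_eq_abs]
        calc |s| * ‖Pv‖ ≤ ε / 2 * 1 := mul_le_mul hs hPvn (norm_nonneg _) (by linarith)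
          _ = ε / 2 := mul_one _
      have h2 : ‖W.subtypeL.comp ((B₁ - π'.comp (A.comp W.subtypeL)).comp π')‖ ≤ ε / 2 := by
        refine (ContinuousLinearMap.opNorm_comp_le _ _).trans ?_
        calc ‖W.subtypeL‖ * ‖(B₁ - π'.comp (A.comp W.subtypeL)).comp π'‖
            ≤ 1 * (‖B₁ - π'.comp (A.comp W.subtypeL)‖ * ‖π'‖) :=
              mul_le_mul hin (ContinuousLinearMap.opNorm_comp_le _ _) (norm_nonneg _) zero_le_one
          _ ≤ 1 * (ε / 2 * 1) := by gcongr
          _ = ε / 2 := by ring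
      linarith
    -- spanning
    have hπv : π' v = 0 := Submodule.orthogonalProjectionOnto_apply_of_mem_orthogonal
      (Submodule.le_orthogonal_orthogonal _ (Submodule.mem_span_singleton_self v))
    have hBv : B v = (μ + s) • v := by
      simp [hB, hAv, hPv, hπv, inner_self_eq_norm_sq_to_K, hv1, add_smul]
    have hBw : ∀ w : W, B (w : E) = (B₁ w : E) + ⟪v, A (w : E)⟫_ℂ • v := by
      intro w
      have h1 : ⟪v, (w : E)⟫_ℂ = 0 := Submodule.mem_orthogonal_singleton_iff_inner_right.1 w.2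
      have h2 : π' (w : E) = w := W.orthogonalProjectionOnto_mem_subspace_eq_self w
      have h3 : A (w : E) = (π' (A (w : E)) : E) + ⟪v, A (w : E)⟫_ℂ • v := by
        have := (ℂ ∙ v).starProjection_add_starProjection_orthogonal (A (w : E))
        rw [Submodule.starProjection_unit_singleton ℂ hv1, add_comm] at this
        exact this.symm
      simp only [hB, add_apply, smul_apply, hPv, ContinuousLinearMap.smulRight_apply, innerSL_apply_apply,
        h1, zero_smul, smul_zero, add_zero, ContinuousLinearMap.comp_apply, h2, sub_apply,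
        Submodule.subtypeL_apply, Submodule.coe_sub]
      nth_rewrite 1 [h3]
      abel
    set S := Submodule.span ℂ {u : E | ∃ ν : ℂ, B u = ν • u} with hS
    have hvS : v ∈ S := Submodule.subset_span ⟨_, hBv⟩
    have hwS : ∀ w : W, (w : E) ∈ S := by
      intro w
      have hw : w ∈ Submodule.span ℂ {u : W | ∃ ν : ℂ, B₁ u = ν • u} := hB₁ ▸ Submodule.mem_top
      induction hw using Submodule.span_induction with
      | mem u hu =>
        obtain ⟨ν, hν⟩ := hu
        rcases eq_or_ne u 0 with h0 | h0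
        · simp [h0]
        have hne : ν - (μ + s) ≠ 0 := by
          intro h
          apply hsv
          rw [← sub_eq_zero.1 h]
          exact Module.End.hasEigenvalue_of_hasEigenvector ⟨Module.End.mem_eigenspace_iff.2 hν, h0⟩
        set c := ⟪v, A (u : E)⟫_ℂ / (ν - (μ + s))
        have : (u : E) + c • v ∈ S := by
          refine Submodule.subset_span ⟨ν, ?_⟩
          rw [map_add, map_smul, hBw, hν, hBv, Submodule.coe_smul, smul_add, smul_smul, smul_smul,
            add_assoc, ← add_smul]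
          congr 2
          simp only [c]; field_simp; ring
        simpa using S.sub_mem this (S.smul_mem c hvS)
      | zero => simp
      | add a b _ _ ha hb => simpa using S.add_mem ha hb
      | smul r a _ ha => simpa using S.smul_mem r ha
    show S = ⊤
    rw [eq_top_iff]
    intro z _
    have := (ℂ ∙ v).starProjection_add_starProjection_orthogonal z
    rw [Submodule.starProjection_unit_singleton ℂ hv1, add_comm] at this
    rw [← this]
    exact S.add_mem (hwS _) (S.smul_mem _ hvS)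

lemma exists_eigenData [FiniteDimensional ℂ E] {T : E →L[ℂ] E} (hT : SpanEigen T) :
    ∃ (k : ℕ) (D : EigenData E (Fin k)), D.op = T ∧
      ∀ i, D.ev i ∈ qvals T := by
  obtain ⟨s, hs, hspan, hli⟩ := exists_linearIndependent ℂ {v : E | ∃ μ : ℂ, T v = μ • v}
  rw [hT] at hspan
  let b₀ : Module.Basis s ℂ E := Module.Basis.mk hli (by rw [Subtype.range_coe, hspan])
  let b : Module.Basis (Fin (Module.finrank ℂ E)) ℂ E :=
    b₀.reindex (b₀.indexEquiv (Module.finBasis ℂ E))
  have hb : ∀ i, ∃ μ : ℂ, T (b i) = μ • b i := by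
    intro i
    have : b i ∈ s := by simp [b, b₀]
    exact hs this
  choose μ hμ using hb
  refine ⟨_, ⟨fun i => LinearMap.toContinuousLinearMap ((b.coord i).smulRight (b i)), μ, ?_, ?_⟩, ?_, ?_⟩
  · ext v
    simp [b.sum_repr]
  · intro i j
    ext v
    by_cases h : i = j
    · subst h; simp
    · simp [h, Module.Basis.repr_self, Finsupp.single_eq_of_ne h]
  · ext v
    conv_rhs => rw [← b.sum_repr v, map_sum]
    simp only [EigenData.op, EigenData.app_apply, map_smul, hμ, id]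
    refine Finset.sum_congr rfl fun i _ => ?_
    simp [smul_comm (μ i)]
  · intro i
    have h := mem_qvals T (b.ne_zero i)
    rw [hμ i, inner_smul_right, inner_self_eq_norm_sq_to_K] at h
    simp only [RCLike.ofReal_eq_complex_ofReal] at h
    rwa [mul_comm (μ i), inv_mul_cancel_left₀ (by simp [b.ne_zero i])] at h

lemma aeval_eigenData {ι : Type*} [Fintype ι] [DecidableEq ι] (D : EigenData E ι) (P : ℂ[X]) :
    aeval D.op P = D.app (fun z => P.eval z) := by
  induction P using Polynomial.induction_on' with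
  | add p q hp hq =>
    rw [map_add, hp, hq]
    ext v; simp [D.app_add]
  | monomial n c =>
    rw [aeval_monomial]
    have hpow : ∀ n : ℕ, D.op ^ n = D.app (fun z => z ^ n) := by
      intro n
      induction n with
      | zero => simp [D.app_one]
      | succ n ih => rw [pow_succ, ih, EigenData.op, D.app_mul]; congr 1
    rw [hpow]
    ext v
    simp [Algebra.algebraMap_eq_smul_one, D.app_smul]

lemma bound_finite [FiniteDimensional ℂ E] [Nontrivial E] (A : E →L[ℂ] E) (P : ℂ[X]) {M : ℝ}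
    (hM : ∀ z ∈ qvals A, ‖P.eval z‖ ≤ M) (h0 : (0 : ℂ) ∈ qvals A) : ‖aeval A P‖ ≤ 2 * M := by
  have hM0 : 0 ≤ M := (norm_nonneg _).trans (hM 0 h0)
  refine le_of_forall_pos_le_add fun η hη => ?_
  obtain ⟨δ₀, hδ₀, huc⟩ : ∃ δ₀ : ℝ, 0 < δ₀ ∧ ∀ k ∈ qvals A, ∀ z, ‖z - k‖ < δ₀ → ‖P.eval z‖ ≤ M + η / 4 := by
    have hopen : IsOpen {z : ℂ | ‖P.eval z‖ < M + η / 4} := isOpen_lt P.continuous.norm continuous_const
    obtain ⟨δ₀, h1, h2⟩ := (isCompact_qvals A).exists_thickening_subset_open hopen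
      (fun k hk => show ‖P.eval k‖ < M + η / 4 by linarith [hM k hk])
    refine ⟨δ₀, h1, fun k hk z hz => le_of_lt (h2 ?_)⟩
    rw [Metric.mem_thickening_iff]
    exact ⟨k, hk, by rwa [dist_eq_norm]⟩
  obtain ⟨L, hKL, hLK⟩ := exists_loop (isCompact_qvals A) (convex_qvals A) h0 hδ₀
  obtain ⟨r, hr, hthick⟩ := (isCompact_qvals A).exists_thickening_subset_open L.isOpen hKL
  have hcont : ContinuousAt (fun B : E →L[ℂ] E => ‖aeval B P‖) A :=
    (P.continuous_aeval.norm).continuousAt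
  obtain ⟨d, hd, hclose⟩ := Metric.continuousAt_iff.1 hcont (η / 2) (half_pos hη)
  obtain ⟨B, hB, hBA⟩ := exists_spanEigen_near_aux (Module.finrank ℂ E) E rfl A (min r d / 2)
    (by positivity)
  have hBA' : ‖B - A‖ < r ∧ ‖B - A‖ < d :=
    ⟨by linarith [min_le_left r d], by linarith [min_le_right r d, lt_min hr hd]⟩
  have hqB : qvals B ⊆ L.Ω := by
    rintro _ ⟨v, hv, rfl⟩
    apply hthick
    rw [Metric.mem_thickening_iff]
    refine ⟨_, ⟨v, hv, rfl⟩, ?_⟩
    rw [mem_sphere_zero_iff_norm] at hv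
    rw [dist_eq_norm]
    show ‖⟪v, B v⟫_ℂ - ⟪v, A v⟫_ℂ‖ < r
    rw [← inner_sub_right, ← sub_apply]
    calc ‖⟪v, (B - A) v⟫_ℂ‖ ≤ ‖v‖ * ‖(B - A) v‖ := norm_inner_le_norm _ _
      _ ≤ 1 * (‖B - A‖ * ‖v‖) := by rw [hv, one_mul, one_mul]; simpa [hv] using (B - A).le_opNorm v
      _ < r := by rw [hv]; simpa using hBA'.1
  obtain ⟨k, D, hD, hev⟩ := exists_eigenData hB
  have hev' : ∀ i, D.ev i ∈ L.Ω := fun i => hqB (hev i)
  have hW : ∀ v : E, ‖v‖ = 1 → ⟪v, D.op v⟫_ℂ ∈ L.Ω := fun v hv =>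
    hqB ⟨v, by simpa using hv, by rw [hD]⟩
  have hMpos : 0 < M + η / 4 := by linarith
  have hb : ‖aeval B P‖ ≤ 2 * (M + η / 4) := by
    rw [← hD, aeval_eigenData]
    refine ContinuousLinearMap.opNorm_le_bound _ (by positivity) fun v => ?_
    refine (L.norm_le_best_mul D hev' P.differentiable.differentiableOn hMpos (fun z hz => ?_) v).trans ?_
    · obtain ⟨q, hq, hzq⟩ := hLK z (subset_closure hz)
      exact huc q hq z hzq
    · have := L.best_le_two D hev' hW
      gcongr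
  have := hclose (show dist B A < d by rw [dist_eq_norm]; exact hBA'.2)
  rw [Real.dist_eq, abs_lt] at this
  linarith

lemma bound_finite' [FiniteDimensional ℂ E] [Nontrivial E] (A : E →L[ℂ] E) (P : ℂ[X]) {M : ℝ}
    (hM : ∀ z ∈ qvals A, ‖P.eval z‖ ≤ M) : ‖aeval A P‖ ≤ 2 * M := by
  obtain ⟨x, hx⟩ := exists_ne (0 : E)
  set z₀ := ((‖x‖ : ℂ) ^ 2)⁻¹ * ⟪x, A x⟫_ℂ with hz₀
  have hz : z₀ ∈ qvals A := mem_qvals A hx
  set A' : E →L[ℂ] E := A - algebraMap ℂ (E →L[ℂ] E) z₀ with hA'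
  have hq : ∀ z ∈ qvals A', z + z₀ ∈ qvals A := by
    rintro _ ⟨v, hv, rfl⟩
    refine ⟨v, hv, ?_⟩
    rw [mem_sphere_zero_iff_norm] at hv
    simp [hA', Algebra.algebraMap_eq_smul_one, inner_smul_right, inner_sub_right,
      inner_self_eq_norm_sq_to_K, hv]
  have h0 : (0 : ℂ) ∈ qvals A' := by
    obtain ⟨v, hv, hv'⟩ := hz
    refine ⟨v, hv, ?_⟩
    rw [mem_sphere_zero_iff_norm] at hv
    simp [hA', Algebra.algebraMap_eq_smul_one, inner_smul_right, inner_sub_right,
      inner_self_eq_norm_sq_to_K, hv, show ⟪v, A v⟫_ℂ = z₀ from hv']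
  have e : aeval A' (P.comp (X + C z₀)) = aeval A P := by
    rw [aeval_comp]; congr 1; simp [hA']
  rw [← e]
  exact bound_finite A' _ (fun z hz => by simpa using hM _ (hq z hz)) h0

/-- Crouzeix's inequality with constant `2` for bounded operators on a complex Hilbert space. -/
theorem crouzeix_bound {H : Type*} [NormedAddCommGroup H] [InnerProductSpace ℂ H] [Nontrivial H]
    (A : H →L[ℂ] H) (P : ℂ[X]) {M : ℝ} (hM : ∀ x : H, ‖x‖ = 1 → ‖P.eval ⟪x, A x⟫_ℂ‖ ≤ M) :
    ‖aeval A P‖ ≤ 2 * M := by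
  obtain ⟨x₁, hx₁⟩ := exists_ne (0 : H)
  have hM0 : 0 ≤ M := (norm_nonneg _).trans (hM ((‖x₁‖ : ℂ)⁻¹ • x₁)
    (by simp [norm_smul, norm_ne_zero_iff.2 hx₁]))
  refine ContinuousLinearMap.opNorm_le_bound _ (by positivity) fun x => ?_
  rcases eq_or_ne x 0 with h | hx
  · simp [h]
  set d := P.natDegree with hd
  set V : Submodule ℂ H := Submodule.span ℂ (range fun i : Fin (d + 1) => (A ^ (i : ℕ)) x) with hV
  have : FiniteDimensional ℂ V := FiniteDimensional.span_of_finite ℂ (finite_range _)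
  have hmem : ∀ i ≤ d, (A ^ i) x ∈ V := fun i hi =>
    Submodule.subset_span ⟨⟨i, by omega⟩, rfl⟩
  have hxV : x ∈ V := by simpa using hmem 0 (Nat.zero_le _)
  have : Nontrivial V := ⟨⟨⟨x, hxV⟩, 0, fun h => hx (congrArg Subtype.val h)⟩⟩
  set A₀ : V →L[ℂ] V := V.orthogonalProjectionOnto.comp (A.comp V.subtypeL) with hA₀
  have hpow : ∀ i ≤ d, (((A₀ ^ i) ⟨x, hxV⟩ : V) : H) = (A ^ i) x := by
    intro i
    induction i with
    | zero => intro _; simp
    | succ i ih =>
      intro hi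
      rw [pow_succ', pow_succ', mul_apply_eq_comp, mul_apply_eq_comp]
      simp only [Function.comp, hA₀, ContinuousLinearMap.comp_apply, Submodule.subtypeL_apply]
      rw [← hA₀, ih (by omega), Submodule.coe_orthogonalProjectionOnto_apply,
        Submodule.starProjection_eq_self_iff.2]
      have := hmem (i + 1) hi
      rwa [pow_succ', mul_apply_eq_comp] at this
  have hP : aeval A P x = ((aeval A₀ P ⟨x, hxV⟩ : V) : H) := by
    rw [aeval_eq_sum_range, aeval_eq_sum_range, sum_apply, sum_apply, Submodule.coe_sum]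
    refine Finset.sum_congr rfl fun i hi => ?_
    rw [smul_apply, smul_apply, Submodule.coe_smul, hpow i (by
      have := Finset.mem_range.1 hi; omega)]
  have hb := bound_finite' A₀ P (M := M) (by
    rintro _ ⟨v, hv, rfl⟩
    rw [mem_sphere_zero_iff_norm] at hv
    have : ⟪v, A₀ v⟫_ℂ = ⟪(v : H), A (v : H)⟫_ℂ := by
      rw [hA₀]
      simp only [ContinuousLinearMap.comp_apply, Submodule.subtypeL_apply]
      rw [Submodule.inner_orthogonalProjectionOnto_eq_of_mem_left]
    show ‖P.eval ⟪v, A₀ v⟫_ℂ‖ ≤ M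
    rw [this]
    exact hM _ (by simpa using hv))
  rw [hP]
  calc ‖((aeval A₀ P ⟨x, hxV⟩ : V) : H)‖ ≤ ‖aeval A₀ P‖ * ‖(⟨x, hxV⟩ : V)‖ :=
        (aeval A₀ P).le_opNorm _
    _ ≤ 2 * M * ‖x‖ := by
        have : ‖(⟨x, hxV⟩ : V)‖ = ‖x‖ := rfl
        rw [this]; gcongr

end Vale.Agent.P123
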